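import Vale.Agent.P255.Main.NoConj
import Vale.Agent.P255.Model.Exists
import Vale.Agent.P255.NPC.CartanHadamard
import Vale.Agent.P255.Topo.Loops

/-!
# P255: assembly
-/

open scoped Manifold ContDiff
open Bundle

namespace Vale.Agent.P255

theorem answer : Answer := by
  obtain ⟨S⟩ := modelSpec_nonempty
  refine ⟨3, S.M, S.top, S.charts, S.mfld, S.t2, S.cpt, S.conn, ⟨S.g, noConjugatePoints S⟩, ?_⟩
  rintro ⟨h, hh⟩
  obtain ⟨x₀, f₁, f₂, a₁, b₁, a₂, b₂, h1a, h1b, h2a, h2b, h12, hf₂, hf₁, hne⟩ := loops S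
  obtain ⟨X, _, _, hcn, hiso, hmin, hfree⟩ := cartanHadamard h hh x₀
  exact hne (commutator_relations_trivial hcn hiso hmin hfree h1a h1b h2a h2b h12 hf₂ hf₁)

end Vale.Agent.P255
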