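import Vale.Agent.P255.Main.ModelFacts

/-!
# P255: the functions of the cylinder along a geodesic of the example
-/

open scoped Manifold ContDiff
open Bundle Set Filter Topology

namespace Vale.Agent.P255

/-- a gauge as a function of the values of the field and of the velocity -/
abbrev GaugeFun := E3 → E3 → ℝ

/-- gauge of a geodesic of constant radius -/
def gau0 : GaugeFun := fun _ _ => 0
/-- gauge of a crossing geodesic -/
noncomputable def gauT : GaugeFun := fun X v => -(X 0) / v 0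
/-- gauge of a geodesic returning to the left -/
noncomputable def gauB : GaugeFun := fun X v => -(X 1 - X 2) / (v 1 - v 2)
/-- gauge of a geodesic returning to the right -/
noncomputable def gauU : GaugeFun := fun X v => -(X 2) / v 2

theorem lam0_eq (z X : ℝ → E3) : lam0 z X = fun s => gau0 (X s) (deriv z s) := rfl
theorem lamT_eq (z X : ℝ → E3) : lamT z X = fun s => gauT (X s) (deriv z s) := rfl
theorem lamB_eq (z X : ℝ → E3) : lamB z X = fun s => gauB (X s) (deriv z s) := rfl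
theorem lamU_eq (z X : ℝ → E3) : lamU z X = fun s => gauU (X s) (deriv z s) := rfl

variable (S : ModelSpec) (γ : ℝ → S.M) (J : ∀ t, TangentSpace (𝓡 3) (γ t))

/-- `r` along the curve -/
noncomputable def radAlong (t : ℝ) : ℝ := S.rad (γ t)
/-- `r'` along the curve -/
noncomputable def radVel (t : ℝ) : ℝ := deriv (ownZ γ t) t 0
/-- momentum dual to `v` -/
noncomputable def pV (t : ℝ) : ℝ := momV (ownZ γ t) t
/-- momentum dual to `u` -/
noncomputable def pU (t : ℝ) : ℝ := momU (ownZ γ t) t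
/-- `U'` along the curve -/
noncomputable def slopeU (t : ℝ) : ℝ := qU' (pV S γ t) (pU S γ t) (radAlong S γ t)

/-- `Φ` in a gauge -/
noncomputable def phiF (L : GaugeFun) (t : ℝ) : ℝ :=
  stdFun S.g γ J t + bdry (ownZ γ t t) (deriv (ownZ γ t) t)
    (ownX γ J t t + L (ownX γ J t t) (deriv (ownZ γ t) t) • deriv (ownZ γ t) t)

variable {S γ J}

theorem gC_eq_of_apply_zero {y y' : E3} (h : y 0 = y' 0) : gC y = gC y' := by
  simp [gC, h]

theorem bdry_eq_of_apply_zero {y y' : E3} (h : y 0 = y' 0) (v w : E3) :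
    bdry y v w = bdry y' v w := by
  simp [bdry, gCr, h]

variable (hγ : IsGeodesic S.g γ) (hJ : IsJacobi S.g γ J)
include hγ hJ

theorem radAlong_continuous : Continuous (radAlong S γ) :=
  S.rad_cont.comp hγ.1.continuous

section window

variable {t : ℝ} (ht : radAlong S γ t ∈ Icc (-(1/4) : ℝ) (5/4))
include ht

theorem cyl_here : CylChart S (γ t) :=
  cylChart_of_rad ⟨le_trans (by norm_num) ht.1, ht.2.trans (by norm_num)⟩

theorem rad_own : ownZ γ t t 0 = radAlong S γ t :=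
  rad_eq_of_mid ((cyl_here hγ hJ ht).rad_eq (own_mem t))
    ⟨lt_of_lt_of_le (by norm_num) ht.1, lt_of_le_of_lt ht.2 (by norm_num)⟩

/-- near `t` everything may be computed in the chart at `γ t` -/
theorem own_agree :
    ∀ᶠ s in 𝓝 t,
      CylChart S (γ s) ∧ γ s ∈ (extChartAt (𝓡 3) (γ t)).source ∧
      radAlong S γ s = ownZ γ t s 0 ∧ ownZ γ s s 0 = ownZ γ t s 0 ∧
      deriv (ownZ γ s) s = deriv (ownZ γ t) s ∧ ownX γ J s s = ownX γ J t s := by
  have hw : ∀ᶠ s in 𝓝 t, radAlong S γ s ∈ Ioo (-(1/2) : ℝ) 2 :=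
    (radAlong_continuous hγ hJ).continuousAt.preimage_mem_nhds
      (Ioo_mem_nhds (lt_of_lt_of_le (by norm_num) ht.1) (lt_of_le_of_lt ht.2 (by norm_num)))
  filter_upwards [hw, source_eventually hγ.1 (γ t) (own_mem t)] with s hs hsrc
  have hc : CylChart S (γ s) := cylChart_of_rad (Ioo_subset_Icc_self hs)
  have hm : radAlong S γ s ∈ Ioo (-1 : ℝ) 3 :=
    ⟨lt_trans (by norm_num) hs.1, hs.2.trans (by norm_num)⟩
  have r1 : ownZ γ t s 0 = radAlong S γ s :=
    rad_eq_of_mid ((cyl_here hγ hJ ht).rad_eq hsrc) hm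
  have r2 : ownZ γ s s 0 = radAlong S γ s := rad_eq_of_mid (hc.rad_eq (own_mem s)) hm
  have hmf := mfderiv_chart_translate (cyl_here hγ hJ ht) hc hsrc (own_mem s)
  refine ⟨hc, hsrc, r1.symm, r2.trans r1.symm, ?_, ?_⟩
  · show deriv (curveIn γ (γ s)) s = deriv (curveIn γ (γ t)) s
    rw [deriv_curveIn hγ.1 _ (own_mem s), deriv_curveIn hγ.1 _ hsrc, hmf]
    rfl
  · show fieldInChart J (γ s) s = fieldInChart J (γ t) s
    simp only [fieldInChart, hmf]
    rfl

theorem pV_eventually : pV S γ =ᶠ[𝓝 t] momV (ownZ γ t) := by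
  filter_upwards [own_agree hγ hJ ht] with s hs
  simp only [pV, momV, hs.2.2.2.2.1, gC_eq_of_apply_zero hs.2.2.2.1]

theorem pU_eventually : pU S γ =ᶠ[𝓝 t] momU (ownZ γ t) := by
  filter_upwards [own_agree hγ hJ ht] with s hs
  simp only [pU, momU, hs.2.2.2.2.1, gC_eq_of_apply_zero hs.2.2.2.1]

theorem radAlong_eventually : radAlong S γ =ᶠ[𝓝 t] fun s => ownZ γ t s 0 := by
  filter_upwards [own_agree hγ hJ ht] with s hs
  exact hs.2.2.1

theorem radVel_eventually : radVel S γ =ᶠ[𝓝 t] fun s => deriv (ownZ γ t) s 0 := by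
  filter_upwards [own_agree hγ hJ ht] with s hs
  simp only [radVel, hs.2.2.2.2.1]

theorem own_mem_cyl : ownZ γ t t 0 ∈ cylI := by
  rw [rad_own hγ hJ ht]
  exact ⟨lt_of_lt_of_le (by norm_num) ht.1, lt_of_le_of_lt ht.2 (by norm_num)⟩

theorem ownG_eventually {s : ℝ} (hs : γ s ∈ (extChartAt (𝓡 3) (γ t)).source) :
    ownG S.g γ t =ᶠ[𝓝 (ownZ γ t s)] gC :=
  (cyl_here hγ hJ ht).metric_eventually ((extChartAt (𝓡 3) (γ t)).map_source hs)

theorem geo_cyl : GeoAt gC (ownZ γ t) t := by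
  have := own_geo hγ hJ t
  unfold GeoAt at this ⊢
  rwa [eventuallyEq_covDeriv (ownG_eventually hγ hJ ht (own_mem t)) EventuallyEq.rfl
    EventuallyEq.rfl] at this

theorem covDeriv_cyl :
    covDeriv (ownG S.g γ t) (ownZ γ t) (ownX γ J t) =ᶠ[𝓝 t]
      covDeriv gC (ownZ γ t) (ownX γ J t) := by
  filter_upwards [source_eventually hγ.1 (γ t) (own_mem t)] with s hs
  exact eventuallyEq_covDeriv (ownG_eventually hγ hJ ht hs) EventuallyEq.rfl EventuallyEq.rfl

theorem jac_cyl : JacAt gC (ownZ γ t) (ownX γ J t) t := by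
  have := own_jac hγ hJ t
  unfold JacAt at this ⊢
  rwa [eventuallyEq_covDeriv (ownG_eventually hγ hJ ht (own_mem t)) EventuallyEq.rfl
    (covDeriv_cyl hγ hJ ht), eventuallyEq_curv (ownG_eventually hγ hJ ht (own_mem t))] at this

theorem covSq_cyl : covSq S.g γ J t = gC (ownZ γ t t) (covDeriv gC (ownZ γ t) (ownX γ J t) t)
    (covDeriv gC (ownZ γ t) (ownX γ J t) t) := by
  rw [covSq, (ownG_eventually hγ hJ ht (own_mem t)).eq_of_nhds,
    (covDeriv_cyl hγ hJ ht).eq_of_nhds]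

theorem phiF_eventually (L : GaugeFun) :
    phiF S γ J L =ᶠ[𝓝 t] phiGauge (fun s => L (ownX γ J t s) (deriv (ownZ γ t) s))
      (ownZ γ t) (ownX γ J t) := by
  filter_upwards [own_agree hγ hJ ht, stdFun_eventually hγ hJ t,
    covDeriv_cyl hγ hJ ht] with s hs hstd hcov
  simp only [phiF, phiGauge, hstd, fStd, hcov, hs.2.2.2.2.1, hs.2.2.2.2.2,
    bdry_eq_of_apply_zero hs.2.2.2.1, (ownG_eventually hγ hJ ht hs.2.1).eq_of_nhds]

theorem cylJac_own (hn : ∀ s, fieldVel S.g γ J s = 0) :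
    CylJac (ownZ γ t) (ownX γ J t) t where
  mem := own_mem_cyl hγ hJ ht
  curve := (own_curveNear hγ hJ t).curve
  field := (own_curveNear hγ hJ t).field
  geo := geo_cyl hγ hJ ht
  jac := jac_cyl hγ hJ ht
  normal := by
    filter_upwards [source_eventually hγ.1 (γ t) (own_mem t)] with s hs
    rw [← (ownG_eventually hγ hJ ht hs).eq_of_nhds, ← hn s, fieldVel_eq hγ.1 (γ t) hs]
    rfl

theorem hasDerivAt_pV : HasDerivAt (pV S γ) 0 t :=
  (momV_deriv (own_mem_cyl hγ hJ ht) (own_curveNear hγ hJ t).curve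
    (geo_cyl hγ hJ ht)).congr_of_eventuallyEq (pV_eventually hγ hJ ht)

theorem hasDerivAt_pU : HasDerivAt (pU S γ) 0 t :=
  (momU_deriv (own_mem_cyl hγ hJ ht) (own_curveNear hγ hJ t).curve
    (geo_cyl hγ hJ ht)).congr_of_eventuallyEq (pU_eventually hγ hJ ht)

theorem hasDerivAt_radAlong : HasDerivAt (radAlong S γ) (radVel S γ t) t := by
  have h1 := ((own_curveNear hγ hJ t).curve.differentiableAt (by simp)).hasDerivAt
  have h2 := (EuclideanSpace.proj (𝕜 := ℝ) (0 : Fin 3)).hasFDerivAt.comp_hasDerivAt t h1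
  exact h2.congr_of_eventuallyEq (radAlong_eventually hγ hJ ht)

theorem hasDerivAt_radVel : HasDerivAt (radVel S γ) (-(1/2) * slopeU S γ t) t := by
  have h := radial_eq (own_mem_cyl hγ hJ ht) (own_curveNear hγ hJ t).curve (geo_cyl hγ hJ ht)
  refine (h.congr_of_eventuallyEq (radVel_eventually hγ hJ ht)).congr_deriv ?_
  rw [slopeU, ← rad_own hγ hJ ht]
  rfl

theorem speedSq_energy :
    speedSq S.g γ t = radVel S γ t ^ 2 + qU (pV S γ t) (pU S γ t) (radAlong S γ t) := by
  rw [speedSq_eq hγ.1 (γ t) (own_mem t), ← rad_own hγ hJ ht]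
  have hG := (ownG_eventually hγ hJ ht (own_mem t)).eq_of_nhds
  simp only [ownG, ownZ] at hG
  rw [hG]
  exact energy_eq (own_mem_cyl hγ hJ ht)

end window

end Vale.Agent.P255
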