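import Vale.Agent.P255.Main.Scalars
import Vale.Agent.P255.Cylinder.Gauge

/-!
# P255: the preferred charts of the example along a curve
-/

open scoped Manifold ContDiff
open Bundle Set Filter Topology

namespace Vale.Agent.P255

theorem vec_apply (a b c : ℝ) : vec a b c 0 = a ∧ vec a b c 1 = b ∧ vec a b c 2 = c := by
  simp [vec]

theorem perC_zero_apply (i j : ℤ) : perC i j 0 = 0 := (vec_apply _ _ _).1

theorem isOpen_domC : IsOpen domC :=
  (isOpen_Ioo : IsOpen (Ioo (-3 : ℝ) 4)).preimage (PiLp.continuous_apply 2 _ (0 : Fin 3))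

variable (S : ModelSpec)

/-- the preferred chart at `x` inverts `eC` -/
def CylChart (x : S.M) : Prop :=
  (extChartAt (𝓡 3) x).target ⊆ domC ∧
    (extChartAt (𝓡 3) x x) 0 ∈ Icc (-(5/2) : ℝ) (7/2) ∧
    ∀ y ∈ (extChartAt (𝓡 3) x).target,
      (extChartAt (𝓡 3) x).symm y = S.eC y ∧ metricInChart S.g x y = gC y

variable {S}

theorem CylChart.metric_eventually {x : S.M} (h : CylChart S x) {y : E3}
    (hy : y ∈ (extChartAt (𝓡 3) x).target) : metricInChart S.g x =ᶠ[𝓝 y] gC := by
  filter_upwards [(isOpen_extChartAt_target x).mem_nhds hy] with w hw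
  exact (h.2.2 w hw).2

theorem CylChart.eC_chart {x p : S.M} (h : CylChart S x)
    (hp : p ∈ (extChartAt (𝓡 3) x).source) :
    extChartAt (𝓡 3) x p ∈ domC ∧ S.eC (extChartAt (𝓡 3) x p) = p := by
  have hm := (extChartAt (𝓡 3) x).map_source hp
  refine ⟨h.1 hm, ?_⟩
  rw [← (h.2.2 _ hm).1, (extChartAt (𝓡 3) x).left_inv hp]

theorem CylChart.rad_eq {x p : S.M} (h : CylChart S x)
    (hp : p ∈ (extChartAt (𝓡 3) x).source) :
    S.rad p = max (-1) (min 3 (extChartAt (𝓡 3) x p 0)) := by
  obtain ⟨h1, h2⟩ := h.eC_chart hp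
  conv_lhs => rw [← h2]
  exact S.rad_C _ h1

theorem rad_eq_of_mid {p : S.M} {y : ℝ} (h : S.rad p = max (-1) (min 3 y))
    (hp : S.rad p ∈ Ioo (-1 : ℝ) 3) : y = S.rad p := by
  rw [h] at hp ⊢
  rcases le_or_gt y (-1) with hy | hy
  · rw [max_eq_left ((min_le_right _ _).trans hy)] at hp
    exact absurd hp.1 (lt_irrefl _)
  · rcases le_or_gt 3 y with hy3 | hy3
    · rw [min_eq_left hy3, max_eq_right (by norm_num)] at hp
      exact absurd hp.2 (lt_irrefl _)
    · rw [min_eq_right hy3.le, max_eq_right hy.le]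

/-- near the collar the preferred chart is a cylinder chart -/
theorem cylChart_of_rad {x : S.M} (hx : S.rad x ∈ Icc (-(1/2) : ℝ) 2) : CylChart S x := by
  have hmem : S.rad x ∈ Ioo (-1 : ℝ) 3 :=
    ⟨lt_of_lt_of_le (by norm_num) hx.1, lt_of_le_of_lt hx.2 (by norm_num)⟩
  rcases S.chart_cases x with h | ⟨h, -⟩
  · exact h
  · exfalso
    rcases S.cover x with ⟨y, hy, he⟩ | ⟨y, hy, he⟩ | ⟨y, hy, he⟩
    · refine h y hy he ?_
      have := rad_eq_of_mid (p := x) (y := y 0) (by rw [← he]; exact S.rad_C y hy) hmem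
      rw [this]
      exact ⟨le_trans (by norm_num) hx.1, hx.2.trans (by norm_num)⟩
    · have := S.rad_L y hy
      rw [he] at this
      rw [this] at hmem
      exact lt_irrefl _ hmem.1
    · have := S.rad_R y hy
      rw [he] at this
      rw [this] at hmem
      exact lt_irrefl _ hmem.2

theorem secForm_congr {G G' : E3 → Form 3} {y : E3} (hG : G =ᶠ[𝓝 y] G') (a b : E3) :
    secForm G y a b = secForm G' y a b := by
  simp only [secForm, hG.eq_of_nhds, eventuallyEq_curv hG]

/-- outside the open collar the curvature is nonpositive -/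
theorem secForm_nonpos_of_rad {x : S.M} (hx : S.rad x ∉ Ioo (0 : ℝ) 1) (a b : E3) :
    secForm (metricInChart S.g x) (extChartAt (𝓡 3) x x) a b ≤ 0 := by
  have hxs := mem_extChartAt_source (I := 𝓡 3) x
  have hxt := (extChartAt (𝓡 3) x).map_source hxs
  rcases S.chart_cases x with h | ⟨-, h | h⟩
  · have h' : CylChart S x := h
    rw [secForm_congr (h'.metric_eventually hxt)]
    refine secForm_gC_nonpos (h.1 hxt) ?_ a b
    have := h'.rad_eq hxs
    by_contra hc
    obtain ⟨hc1, hc2⟩ := not_or.1 hc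
    push Not at hc1 hc2
    exact hx (by rw [this, min_eq_right (by linarith), max_eq_right (by linarith)]; exact ⟨hc1, hc2⟩)
  · have hG : metricInChart S.g x =ᶠ[𝓝 (extChartAt (𝓡 3) x x)] gL := by
      filter_upwards [(isOpen_extChartAt_target x).mem_nhds hxt] with w hw
      exact (h w hw).2.2
    rw [secForm_congr hG]
    simp [secForm, curv_gL]
  · have hG : metricInChart S.g x =ᶠ[𝓝 (extChartAt (𝓡 3) x x)] gR := by
      filter_upwards [(isOpen_extChartAt_target x).mem_nhds hxt] with w hw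
      exact (h w hw).2.2
    rw [secForm_congr hG]
    simp [secForm, curv_gR]

/-- two cylinder charts differ by a period near a common point -/
theorem cylChart_translate {x x' p : S.M} (h : CylChart S x) (h' : CylChart S x')
    (hp : p ∈ (extChartAt (𝓡 3) x).source) (hp' : p ∈ (extChartAt (𝓡 3) x').source) :
    ∃ i j, (fun q => extChartAt (𝓡 3) x' q) =ᶠ[𝓝 p]
      fun q => extChartAt (𝓡 3) x q + perC i j := by
  obtain ⟨hy, hey⟩ := h.eC_chart hp
  obtain ⟨hy', hey'⟩ := h'.eC_chart hp'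
  obtain ⟨i, j, hij⟩ := (S.eqC _ hy _ hy').1 (hey.trans hey'.symm)
  refine ⟨i, j, ?_⟩
  set d : S.M → E3 := fun q => extChartAt (𝓡 3) x' q - extChartAt (𝓡 3) x q - perC i j with hd
  have hc : ContinuousAt d p :=
    ((continuousAt_extChartAt' hp').sub (continuousAt_extChartAt' hp)).sub continuousAt_const
  have hd0 : d p = 0 := by simp only [hd]; rw [hij]; abel
  have h1 : ∀ᶠ q in 𝓝 p, |d q 1| < 1 := by
    have h01 : ContinuousAt (fun q => |d q 1|) p :=
      (((PiLp.continuous_apply 2 _ (1 : Fin 3)).continuousAt).comp hc).abs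
    exact h01.eventually_lt continuousAt_const (by simp [hd0])
  have h2 : ∀ᶠ q in 𝓝 p, |d q 2| < 1 := by
    have h02 : ContinuousAt (fun q => |d q 2|) p :=
      (((PiLp.continuous_apply 2 _ (2 : Fin 3)).continuousAt).comp hc).abs
    exact h02.eventually_lt continuousAt_const (by simp [hd0])
  filter_upwards [h1, h2, (isOpen_extChartAt_source x).mem_nhds hp,
    (isOpen_extChartAt_source x').mem_nhds hp'] with q hq1 hq2 hq hq'
  obtain ⟨hz, hez⟩ := h.eC_chart hq
  obtain ⟨hz', hez'⟩ := h'.eC_chart hq'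
  obtain ⟨i', j', hij'⟩ := (S.eqC _ hz _ hz').1 (hez.trans hez'.symm)
  have e1 : d q 1 = ((i' - i : ℤ) : ℝ) := by
    simp only [hd, hij']; simp [perC, vec]
  have e2 : d q 2 = ((j' - j : ℤ) : ℝ) := by
    simp only [hd, hij']; simp [perC, vec]
  rw [e1, ← Int.cast_abs] at hq1
  rw [e2, ← Int.cast_abs] at hq2
  have hi : i' = i := by
    have : |i' - i| < 1 := by exact_mod_cast hq1
    rw [abs_lt] at this; omega
  have hj : j' = j := by
    have : |j' - j| < 1 := by exact_mod_cast hq2
    rw [abs_lt] at this; omega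
  rw [hij', hi, hj]

theorem mfderiv_chart_translate {x x' p : S.M} (h : CylChart S x) (h' : CylChart S x')
    (hp : p ∈ (extChartAt (𝓡 3) x).source) (hp' : p ∈ (extChartAt (𝓡 3) x').source) :
    mfderiv (𝓡 3) (𝓡 3) (extChartAt (𝓡 3) x') p = mfderiv (𝓡 3) (𝓡 3) (extChartAt (𝓡 3) x) p := by
  obtain ⟨i, j, he⟩ := cylChart_translate h h' hp hp'
  have hd : MDifferentiableAt (𝓡 3) (𝓡 3) (extChartAt (𝓡 3) x) p :=
    mdifferentiableAt_extChartAt (by simpa [extChartAt_source] using hp)
  have := (hd.hasMFDerivAt.add (hasMFDerivAt_const (perC i j) p)).congr_of_eventuallyEq he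
  rw [this.mfderiv]
  exact add_zero _

end Vale.Agent.P255
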