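import Mathlib

/-!
# P255: local monotonicity at every point gives monotonicity; a two-sided Grönwall vanishing lemma
-/

open Set Filter Topology

namespace Vale.Agent.P255

theorem monotone_of_local {f : ℝ → ℝ}
    (hr : ∀ t, ∀ᶠ s in 𝓝[>] t, f t ≤ f s) (hl : ∀ t, ∀ᶠ s in 𝓝[<] t, f s ≤ f t) :
    Monotone f := by
  intro a b hab
  set S := {s ∈ Icc a b | f a ≤ f s} with hS
  have hne : S.Nonempty := ⟨a, ⟨le_rfl, hab⟩, le_rfl⟩
  have hbd : BddAbove S := ⟨b, fun s hs => hs.1.2⟩
  set c := sSup S with hc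
  have hac : a ≤ c := le_csSup hbd ⟨⟨le_rfl, hab⟩, le_rfl⟩
  have hcb : c ≤ b := csSup_le hne fun s hs => hs.1.2
  have hfc : f a ≤ f c := by
    obtain ⟨δ, hδ, hsub⟩ := mem_nhdsLT_iff_exists_Ioo_subset.1 (hl c)
    obtain ⟨s, hs, hds⟩ := exists_lt_of_lt_csSup hne (show δ < c from hδ)
    rcases (le_csSup hbd hs).eq_or_lt with h | h
    · exact le_of_le_of_eq hs.2 (congrArg f h)
    · exact hs.2.trans (hsub ⟨hds, h⟩)
  rcases hcb.eq_or_lt with h | h
  · exact h ▸ hfc
  · exfalso
    obtain ⟨e, he, hsub⟩ := mem_nhdsGT_iff_exists_Ioo_subset.1 (hr c)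
    obtain ⟨s, hs1, hs2⟩ := exists_between (show c < min e b from lt_min he h)
    have hsS : s ∈ S := ⟨⟨hac.trans hs1.le, (hs2.trans_le (min_le_right _ _)).le⟩,
      hfc.trans (hsub ⟨hs1, hs2.trans_le (min_le_left _ _)⟩)⟩
    exact (lt_irrefl c) (hs1.trans_le (le_csSup hbd hsS))

/-- a nonnegative function with `|E'| ≤ C E` vanishing once vanishes identically -/
theorem eq_zero_of_abs_deriv_le {E E' : ℝ → ℝ} {C : ℝ} (h : ∀ t, HasDerivAt E (E' t) t)
    (hb : ∀ t, |E' t| ≤ C * E t) (hnn : ∀ t, 0 ≤ E t) {a : ℝ} (ha : E a = 0) (t : ℝ) :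
    E t = 0 := by
  have hd1 : ∀ s, HasDerivAt (fun u => E u * Real.exp (-C * u))
      ((E' s - C * E s) * Real.exp (-C * s)) s := fun s => by
    have := (h s).fun_mul (((hasDerivAt_id s).const_mul (-C)).exp)
    exact this.congr_deriv (by simp only [id]; ring)
  have hd2 : ∀ s, HasDerivAt (fun u => E u * Real.exp (C * u))
      ((E' s + C * E s) * Real.exp (C * s)) s := fun s => by
    have := (h s).fun_mul (((hasDerivAt_id s).const_mul C).exp)
    exact this.congr_deriv (by simp only [id]; ring)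
  have anti : Antitone fun u => E u * Real.exp (-C * u) :=
    antitone_of_deriv_nonpos (fun s => (hd1 s).differentiableAt) fun s => by
      rw [(hd1 s).deriv]
      exact mul_nonpos_of_nonpos_of_nonneg (by linarith [(abs_le.1 (hb s)).2]) (Real.exp_pos _).le
  have mono : Monotone fun u => E u * Real.exp (C * u) :=
    monotone_of_deriv_nonneg (fun s => (hd2 s).differentiableAt) fun s => by
      rw [(hd2 s).deriv]
      exact mul_nonneg (by linarith [(abs_le.1 (hb s)).1]) (Real.exp_pos _).le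
  refine le_antisymm ?_ (hnn t)
  rcases le_total a t with hat | hat
  · have := anti hat
    simp only [ha, zero_mul] at this
    exact nonpos_of_mul_nonpos_left this (Real.exp_pos _)
  · have := mono hat
    simp only [ha, zero_mul] at this
    exact nonpos_of_mul_nonpos_left this (Real.exp_pos _)

end Vale.Agent.P255
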