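import Vale.Agent.P255.Main.Phi

/-!
# P255 module F: no conjugate points

`Φ = g(J,DJ)` outside the open collar `0 < r < 1`. On a maximal interval in the collar `Φ` is
`phiGauge` with `lamB` (resp. `lamU`) if `r' = 0` somewhere with `U' > 0` (resp. `< 0`), `lam0` if
the geodesic has constant `r`, and `lamT` otherwise. `Φ` is locally monotone everywhere and
vanishes at two zeros of `J`; so it is constant between them, so `DJ = 0` at the first one.
-/

open scoped Manifold ContDiff
open Bundle Set Filter Topology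

namespace Vale.Agent.P255

variable {S : ModelSpec} {γ : ℝ → S.M} {J : ∀ t, TangentSpace (𝓡 3) (γ t)}
variable (hγ : IsGeodesic S.g γ) (hJ : IsJacobi S.g γ J)
include hγ hJ

/-- a zero of `J` with `Φ = 0` just after it is a double zero -/
theorem covSq_zero_of_phi_zero (hn : ∀ s, fieldVel S.g γ J s = 0) {a b : ℝ} (hab : a < b)
    (ha : J a = 0) (h0 : ∀ s ∈ Icc a b, bigPhi S γ J s = 0) : covSq S.g γ J a = 0 := by
  have hX : ownX γ J a a = 0 := by simp only [ownX, fieldInChart, ha]; exact map_zero _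
  have hstd : HasDerivAt (stdFun S.g γ J) (covSq S.g γ J a) a := by
    have := hasDerivAt_stdFun hγ hJ a
    simpa [secForm, hX] using this
  have huniq : ∀ f : ℝ → ℝ, HasDerivAt f (covSq S.g γ J a) a →
      (∀ᶠ s in 𝓝[>] a, f s = 0) → f a = 0 → covSq S.g γ J a = 0 := by
    intro f hf hev hfa
    have h1 : HasDerivWithinAt f (covSq S.g γ J a) (Ioi a) a := hf.hasDerivWithinAt
    have h2 : HasDerivWithinAt f 0 (Ioi a) a :=
      (hasDerivWithinAt_const a (Ioi a) (0:ℝ)).congr_of_eventuallyEq hev hfa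
    exact (uniqueDiffWithinAt_Ioi a).eq_deriv _ h1 h2
  have hphi : ∀ᶠ s in 𝓝[>] a, bigPhi S γ J s = 0 := by
    filter_upwards [Ioo_mem_nhdsGT hab] with s hs
    exact h0 s (Ioo_subset_Icc_self hs)
  by_cases hin : radAlong S γ a ∈ Ioo (0:ℝ) 1
  · obtain ⟨d, hd, -, hd0⟩ := gauge_deriv hγ hJ hn hin
    rw [hd0 ha] at hd
    refine huniq _ hd ?_ ?_
    · obtain ⟨l, u, hlu, hsub⟩ := mem_nhds_iff_exists_Ioo_subset.1
        ((radAlong_continuous hγ hJ).continuousAt.preimage_mem_nhds (isOpen_Ioo.mem_nhds hin))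
      filter_upwards [hphi, Ioo_mem_nhdsGT hlu.2] with s hs hsu
      have hsm : s ∈ Ioo l u := ⟨hlu.1.trans hsu.1, hsu.2⟩
      have hsin : radAlong S γ s ∈ Ioo (0:ℝ) 1 := hsub hsm
      rw [bigPhi, if_pos hsin,
        gauge_eq_of_mem (passage_of_interval (fun v hv => hsub hv) hlu hsm)] at hs
      exact hs
    · have := bigPhi_zero hγ hJ ha
      rwa [bigPhi, if_pos hin] at this
  · rcases (side_dichotomy hγ hJ hin).1 with hout | ⟨hcoll, hside⟩
    · refine huniq _ hstd ?_ ?_
      · filter_upwards [hphi, hout] with s hs hs'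
        rwa [bigPhi, if_neg hs'] at hs
      · have := bigPhi_zero hγ hJ ha
        rwa [bigPhi, if_neg hin] at this
    · obtain ⟨e, he, hsub⟩ := mem_nhdsGT_iff_exists_Ioo_subset.1 hcoll
      obtain ⟨s₀, hs₀⟩ := exists_between (show a < e from he)
      have hpass : ∀ u ∈ Ioo a e, u ∈ passage S γ s₀ := fun u hu =>
        passage_of_interval (fun v hv => hsub hv) hs₀ hu
      have ht : radAlong S γ a = 0 ∨ radAlong S γ a = 1 := hside.imp And.left And.left
      have hv : radVel S γ a ≠ 0 := by rcases hside with h | h; exacts [h.2.ne', h.2.ne]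
      have hend := gauge_end hγ hJ hn (s := s₀) ht hv (hsub hs₀) fun u hu hne => hpass u (by
        rw [uIcc_of_le hs₀.1.le] at hu
        exact ⟨lt_of_le_of_ne hu.1 hne.symm, hu.2.trans_lt hs₀.2⟩)
      set L := gauge S γ s₀
      have hw : radAlong S γ a ∈ Icc (-(1/4) : ℝ) (5/4) := by
        rcases ht with h | h <;> rw [h] <;> norm_num
      have hc := own_curveNear hγ hJ a
      set z := ownZ γ a
      set X := ownX γ J a
      have hXd : DifferentiableAt ℝ X a := hc.field.differentiableAt (by simp)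
      have hZd : DifferentiableAt ℝ (deriv z) a :=
        (hc.curve.derivWithin (m := ∞) (by simp)).differentiableAt (by simp)
      have hL0 : L (X a) (deriv z a) = 0 := by
        simp only [L]; unfold gauge; split_ifs <;> simp [gauB, gauU, gau0, gauT, X, hX]
      set W : ℝ → E3 := fun u => X u + L (X u) (deriv z u) • deriv z u
      have hW : DifferentiableAt ℝ W a := hXd.add (hend.2.2.2.smul hZd)
      have hW0 : W a = 0 := by
        rw [hX] at hL0
        simp only [W, hX, hL0, zero_smul, add_zero]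
      have hz0 : (z a) 0 ∈ cylI := own_mem_cyl hγ hJ hw
      set H : ℝ → E3 →L[ℝ] ℝ := fun u =>
        (W u 0) • gCr (z u) (deriv z u) - ((1/2) * deriv z u 0) • gCr (z u) (W u)
      have hH : ContinuousAt H a := by
        have hg : ContinuousAt (fun u => gCr (z u)) a :=
          (gCr_continuousAt hz0).comp (f := z) hc.curve.continuousAt
        have hw0 : ContinuousAt (fun u => W u 0) a :=
          ((PiLp.continuous_apply 2 _ (0 : Fin 3)).continuousAt).comp (f := W) hW.continuousAt
        have hv0 : ContinuousAt (fun u => deriv z u 0) a :=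
          ((PiLp.continuous_apply 2 _ (0 : Fin 3)).continuousAt).comp (f := deriv z) hZd.continuousAt
        exact (hw0.smul (hg.clm_apply hZd.continuousAt)).sub
          ((continuousAt_const.mul hv0).smul (hg.clm_apply hW.continuousAt))
      have hb : HasDerivAt (fun u => H u (W u)) 0 a := by
        refine hasDerivAt_apply_zero hH ?_ hW.hasDerivAt hW0
        simp [H, hW0]
      have heq : (fun u => bdry (z u) (deriv z u) (W u)) = fun u => H u (W u) := by
        funext u
        simp [bdry, H, ContinuousLinearMap.sub_apply, ContinuousLinearMap.smul_apply, smul_eq_mul]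
      have hb' : HasDerivAt (fun u => bdry (z u) (deriv z u) (W u)) 0 a := heq ▸ hb
      have hsum : HasDerivAt (fun u => stdFun S.g γ J u + bdry (z u) (deriv z u) (W u))
          (covSq S.g γ J a) a := (hstd.fun_add hb').congr_deriv (add_zero _)
      refine huniq _ hsum ?_ ?_
      · filter_upwards [hphi, Ioo_mem_nhdsGT (show a < e from he),
          (own_agree hγ hJ hw).filter_mono nhdsWithin_le_nhds] with s hs hs' hag
        rw [bigPhi, if_pos (show radAlong S γ s ∈ Ioo (0:ℝ) 1 from hsub hs'), gauge_eq_of_mem (hpass s hs'), phiF, hag.2.2.2.2.1,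
          hag.2.2.2.2.2, bdry_eq_of_apply_zero hag.2.2.2.1] at hs
        exact hs
      · simp [hW0, bdry, stdFun, fStd, hX, X]

omit hγ hJ in
theorem form_abs_le {G : Form 3} (hs : ∀ u v, G u v = G v u) (hp : ∀ u, 0 ≤ G u u) (u v : E3) :
    |2 * G u v| ≤ G u u + G v v := by
  have h1 := hp (u + v)
  have h2 := hp (u - v)
  simp only [map_add, map_sub, ContinuousLinearMap.add_apply, ContinuousLinearMap.sub_apply,
    hs v u] at h1 h2
  rw [abs_le]; constructor <;> linarith

theorem covSq_deriv_bound : ∃ C : ℝ, 0 ≤ C ∧ ∀ t,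
    |2 * ownG S.g γ t (ownZ γ t t) (curv (ownG S.g γ t) (ownZ γ t t) (ownX γ J t t)
      (deriv (ownZ γ t) t) (deriv (ownZ γ t) t))
      (covDeriv (ownG S.g γ t) (ownZ γ t) (ownX γ J t) t)|
      ≤ C * (fieldSq S.g γ J t + covSq S.g γ J t) := by
  obtain ⟨K, hK⟩ := curv_gC_bound
  refine ⟨|K| * speedSq S.g γ 0, mul_nonneg (abs_nonneg _) ?_, fun t => ?_⟩
  · rcases eq_or_ne (velo γ (0:ℝ)) 0 with h | h
    · simp [speedSq, h]
    · exact (S.g.pos (γ 0) _ h).le
  have hsum : 0 ≤ fieldSq S.g γ J t + covSq S.g γ J t :=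
    add_nonneg (fieldSq_nonneg hγ hJ t) (covSq_nonneg hγ hJ t)
  have hN : 0 ≤ speedSq S.g γ 0 := by
    rcases eq_or_ne (velo γ (0:ℝ)) 0 with h | h
    · simp [speedSq, h]
    · exact (S.g.pos (γ 0) _ h).le
  have hflat : curv (ownG S.g γ t) (ownZ γ t t) = 0 → |2 * ownG S.g γ t (ownZ γ t t)
      (curv (ownG S.g γ t) (ownZ γ t t) (ownX γ J t t)
      (deriv (ownZ γ t) t) (deriv (ownZ γ t) t))
      (covDeriv (ownG S.g γ t) (ownZ γ t) (ownX γ J t) t)|
      ≤ |K| * speedSq S.g γ 0 * (fieldSq S.g γ J t + covSq S.g γ J t) := fun h => by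
    simp only [h, Pi.zero_apply, map_zero, ContinuousLinearMap.zero_apply, mul_zero, abs_zero]
    positivity
  have hxt := (extChartAt (𝓡 3) (γ t)).map_source (own_mem (γ := γ) t)
  rcases S.chart_cases (γ t) with h | ⟨-, h | h⟩
  · have h' : CylChart S (γ t) := h
    have hG : ownG S.g γ t =ᶠ[𝓝 (ownZ γ t t)] gC := h'.metric_eventually hxt
    set y := ownZ γ t t with hy
    set v := deriv (ownZ γ t) t
    set X := ownX γ J t t
    set D := covDeriv (ownG S.g γ t) (ownZ γ t) (ownX γ J t) t
    have hy0 : y 0 ∈ Icc (-(5/2) : ℝ) (7/2) := h'.2.1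
    have hpos := (gC_metricNear (h'.1 hxt)).pos.self_of_nhds
    have hsymm := (gC_metricNear (h'.1 hxt)).symm.self_of_nhds
    have hnn : ∀ u, 0 ≤ gC y u u := fun u => by
      rcases eq_or_ne u 0 with rfl | hu
      · simp
      · exact (hpos u hu).le
    have hb := hK y hy0 X v v D
    have hS : fieldSq S.g γ J t = gC y X X := by
      rw [← hG.eq_of_nhds, fieldSq_eq (γ t) (own_mem t)]; rfl
    have hT : covSq S.g γ J t = gC y D D := by rw [← hG.eq_of_nhds]; rfl
    have hNv : speedSq S.g γ 0 = gC y v v := by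
      rw [speedSq_const hγ hJ 0 t, ← hG.eq_of_nhds, speedSq_eq hγ.1 (γ t) (own_mem t)]; rfl
    rw [eventuallyEq_curv hG, hG.eq_of_nhds, abs_mul, abs_two, hS, hT, hNv]
    have e1 := Real.sq_sqrt (hnn X)
    have e2 := Real.sq_sqrt (hnn D)
    have e3 := Real.mul_self_sqrt (hnn v)
    have hmul : 2 * (Real.sqrt (gC y X X) * Real.sqrt (gC y D D)) ≤ gC y X X + gC y D D := by
      nlinarith [sq_nonneg (Real.sqrt (gC y X X) - Real.sqrt (gC y D D))]
    calc 2 * |gC y (curv gC y X v v) D|
        ≤ 2 * (K * (Real.sqrt (gC y X X) * Real.sqrt (gC y v v) * Real.sqrt (gC y v v)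
            * Real.sqrt (gC y D D))) := by linarith
      _ = K * (gC y v v * (2 * (Real.sqrt (gC y X X) * Real.sqrt (gC y D D)))) := by
          rw [show gC y v v * (2 * (Real.sqrt (gC y X X) * Real.sqrt (gC y D D)))
            = (Real.sqrt (gC y v v) * Real.sqrt (gC y v v)) *
              (2 * (Real.sqrt (gC y X X) * Real.sqrt (gC y D D))) by rw [e3]]
          ring
      _ ≤ |K| * (gC y v v * (2 * (Real.sqrt (gC y X X) * Real.sqrt (gC y D D)))) :=
          mul_le_mul_of_nonneg_right (le_abs_self K) (mul_nonneg (hnn v) (by positivity))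
      _ ≤ |K| * (gC y v v * (gC y X X + gC y D D)) :=
          mul_le_mul_of_nonneg_left (mul_le_mul_of_nonneg_left hmul (hnn v)) (abs_nonneg K)
      _ = _ := by ring
  · refine hflat ?_
    have hG : ownG S.g γ t =ᶠ[𝓝 (ownZ γ t t)] gL := by
      filter_upwards [(isOpen_extChartAt_target (γ t)).mem_nhds hxt] with w hw
      exact (h w hw).2.2
    rw [eventuallyEq_curv hG]; funext u v w; exact curv_gL _ u v w
  · refine hflat ?_
    have hG : ownG S.g γ t =ᶠ[𝓝 (ownZ γ t t)] gR := by
      filter_upwards [(isOpen_extChartAt_target (γ t)).mem_nhds hxt] with w hw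
      exact (h w hw).2.2
    rw [eventuallyEq_curv hG]; funext u v w; exact curv_gR _ u v w

/-- uniqueness: `J = DJ = 0` at one time forces `J = 0` -/
theorem jacobi_eq_zero {a : ℝ} (ha : J a = 0) (hD : covSq S.g γ J a = 0) (t : ℝ) : J t = 0 := by
  obtain ⟨C, hC0, hC⟩ := covSq_deriv_bound hγ hJ
  have hE : fieldSq S.g γ J t + covSq S.g γ J t = 0 := by
    refine eq_zero_of_abs_deriv_le (E := fun s => fieldSq S.g γ J s + covSq S.g γ J s)
      (C := C + 1) (fun s => (hasDerivAt_fieldSq hγ hJ s).fun_add (hasDerivAt_covSq hγ hJ s))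
      (fun s => ?_) (fun s => add_nonneg (fieldSq_nonneg hγ hJ s) (covSq_nonneg hγ hJ s))
      (a := a) ?_ t
    · have hnear := (own_curveNear hγ hJ s).metric
      have hnn : ∀ u, 0 ≤ ownG S.g γ s (ownZ γ s s) u u := fun u => by
        rcases eq_or_ne u 0 with rfl | hu
        · simp
        · exact (hnear.pos.self_of_nhds u hu).le
      have h1 := form_abs_le hnear.symm.self_of_nhds hnn (ownX γ J s s)
        (covDeriv (ownG S.g γ s) (ownZ γ s) (ownX γ J s) s)
      have hS : fieldSq S.g γ J s = ownG S.g γ s (ownZ γ s s) (ownX γ J s s) (ownX γ J s s) := by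
        rw [fieldSq_eq (γ s) (own_mem s)]; rfl
      have h1' : |2 * stdFun S.g γ J s| ≤ fieldSq S.g γ J s + covSq S.g γ J s := by
        rw [hS]; exact h1
      refine (abs_add_le _ _).trans ?_
      rw [neg_mul, abs_neg]
      linarith [hC s]
    · simp only [hD, add_zero, fieldSq, ha]; simp
  have h0 : fieldSq S.g γ J t = 0 := by
    linarith [fieldSq_nonneg hγ hJ t, covSq_nonneg hγ hJ t]
  by_contra hne
  exact (S.g.pos (γ t) (J t) hne).ne' h0

omit hγ hJ in
/-- the example has no conjugate points -/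
theorem noConjugatePoints (S : ModelSpec) : NoConjugatePoints S.g := by
  intro γ J hγ hJ a b hab ha hb
  wlog hlt : a < b generalizing a b
  · exact this b a hab.symm hb ha (lt_of_le_of_ne (not_lt.1 hlt) hab.symm)
  have hn : ∀ s, fieldVel S.g γ J s = 0 := fun s => (fieldVel_zero hγ hJ hab ha hb s).1
  have hmono := bigPhi_monotone hγ hJ hn
  have h0 : ∀ s ∈ Icc a b, bigPhi S γ J s = 0 := fun s hs =>
    le_antisymm (bigPhi_zero hγ hJ hb ▸ hmono hs.2) (bigPhi_zero hγ hJ ha ▸ hmono hs.1)
  exact jacobi_eq_zero hγ hJ ha (covSq_zero_of_phi_zero hγ hJ hn hlt ha h0)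

end Vale.Agent.P255
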