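import Vale.Agent.P255.Main.Regime
import Vale.Agent.P255.Main.Mono

/-!
# P255: the monotone function along a geodesic
-/

open scoped Manifold ContDiff
open Bundle Set Filter Topology

namespace Vale.Agent.P255

variable (S : ModelSpec) (γ : ℝ → S.M) (J : ∀ t, TangentSpace (𝓡 3) (γ t))

/-- times spent in the open collar -/
noncomputable def collarTimes : Set ℝ := {t | radAlong S γ t ∈ Ioo (0:ℝ) 1}

/-- the maximal interval in the collar around `t` -/
noncomputable def passage (t : ℝ) : Set ℝ := connectedComponentIn (collarTimes S γ) t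

open Classical in
/-- the gauge used on the passage through `t` -/
noncomputable def gauge (t : ℝ) : GaugeFun :=
  if ∃ τ ∈ passage S γ t, radVel S γ τ = 0 ∧ 0 < slopeU S γ τ then gauB
  else if ∃ τ ∈ passage S γ t, radVel S γ τ = 0 ∧ slopeU S γ τ < 0 then gauU
  else if ∃ τ ∈ passage S γ t, radVel S γ τ = 0 then gau0
  else gauT

open Classical in
/-- `Φ` -/
noncomputable def bigPhi (t : ℝ) : ℝ :=
  if radAlong S γ t ∈ Ioo (0:ℝ) 1 then phiF S γ J (gauge S γ t) t else stdFun S.g γ J t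

variable {S γ J}

theorem passage_ordConnected (t : ℝ) : (passage S γ t).OrdConnected :=
  isPreconnected_connectedComponentIn.ordConnected

theorem passage_subset {t : ℝ} {s : ℝ} (hs : s ∈ passage S γ t) :
    radAlong S γ s ∈ Ioo (0:ℝ) 1 :=
  connectedComponentIn_subset (collarTimes S γ) t hs

theorem gauge_eq_of_mem {s t : ℝ} (hs : s ∈ passage S γ t) : gauge S γ s = gauge S γ t := by
  have : passage S γ t = passage S γ s := connectedComponentIn_eq hs
  unfold gauge
  rw [this]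

theorem passage_of_interval {a b s u : ℝ} (hsub : ∀ v ∈ Ioo a b, radAlong S γ v ∈ Ioo (0:ℝ) 1)
    (hs : s ∈ Ioo a b) (hu : u ∈ Ioo a b) : u ∈ passage S γ s :=
  isPreconnected_Ioo.subset_connectedComponentIn hs hsub hu

variable (hγ : IsGeodesic S.g γ) (hJ : IsJacobi S.g γ J) (hn : ∀ s, fieldVel S.g γ J s = 0)
include hγ hJ hn

theorem window_of_collar {t : ℝ} (ht : radAlong S γ t ∈ Ioo (0:ℝ) 1) :
    radAlong S γ t ∈ Icc (-(1/4) : ℝ) (5/4) :=
  ⟨le_trans (by norm_num) ht.1.le, ht.2.le.trans (by norm_num)⟩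

/-- in the collar the derivative in the gauge of the passage is nonnegative -/
theorem gauge_deriv {t : ℝ} (ht : radAlong S γ t ∈ Ioo (0:ℝ) 1) :
    ∃ d, HasDerivAt (phiF S γ J (gauge S γ t)) d t ∧ 0 ≤ d ∧
      (J t = 0 → d = covSq S.g γ J t) := by
  have hw := window_of_collar hγ hJ hn ht
  have hr : ownZ γ t t 0 ∈ Ioo (0:ℝ) 1 := by rw [rad_own hγ hJ hw]; exact ht
  have hc := cylJac_own hγ hJ hw hn
  have hto : J t = 0 → ownX γ J t t = 0 := fun h => by
    simp only [ownX, fieldInChart, h]; exact map_zero _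
  have key : ∀ L : GaugeFun, (∃ d, HasDerivAt
      (phiGauge (fun s => L (ownX γ J t s) (deriv (ownZ γ t) s)) (ownZ γ t) (ownX γ J t)) d t ∧
      0 ≤ d ∧ (ownX γ J t t = 0 → d = gC (ownZ γ t t) (covDeriv gC (ownZ γ t) (ownX γ J t) t)
        (covDeriv gC (ownZ γ t) (ownX γ J t) t))) →
      ∃ d, HasDerivAt (phiF S γ J L) d t ∧ 0 ≤ d ∧ (J t = 0 → d = covSq S.g γ J t) := by
    rintro L ⟨d, h1, h2, h3⟩
    exact ⟨d, h1.congr_of_eventuallyEq (phiF_eventually hγ hJ hw L), h2,
      fun h => (h3 (hto h)).trans (covSq_cyl hγ hJ hw).symm⟩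
  have hmem : t ∈ passage S γ t := mem_connectedComponentIn ht
  have hmom : ∀ τ ∈ passage S γ t, pV S γ t = pV S γ τ ∧ pU S γ t = pU S γ τ := fun τ hτ =>
    momenta_const hγ hJ fun v hv =>
      window_of_collar hγ hJ hn (passage_subset ((passage_ordConnected t).uIcc_subset hmem hτ hv))
  unfold gauge
  split_ifs with hB hU h0
  · obtain ⟨τ, hτ, hv, hs⟩ := hB
    refine key gauB (phiB_deriv hc hr ?_)
    show 0 < qU' (pV S γ t) (pU S γ t) (ownZ γ t t 0)
    rw [rad_own hγ hJ hw, (hmom τ hτ).1, (hmom τ hτ).2]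
    exact hs.trans_le (qU'_antitone _ _ (Ioo_subset_Icc_self ht)
      (Ioo_subset_Icc_self (passage_subset hτ))
      (turn_left hγ hJ (passage_ordConnected t) (fun v hv => passage_subset hv) hτ hv hs t hmem))
  · obtain ⟨τ, hτ, hv, hs⟩ := hU
    refine key gauU (phiU_deriv hc hr ?_)
    show qU' (pV S γ t) (pU S γ t) (ownZ γ t t 0) < 0
    rw [rad_own hγ hJ hw, (hmom τ hτ).1, (hmom τ hτ).2]
    exact (qU'_antitone _ _ (Ioo_subset_Icc_self (passage_subset hτ)) (Ioo_subset_Icc_self ht)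
      (turn_right hγ hJ (passage_ordConnected t) (fun v hv => passage_subset hv) hτ hv hs t
        hmem)).trans_lt hs
  · exact key gau0 (phi0_deriv hc hr)
  · exact key gauT (phiT_deriv hc hr fun h => h0 ⟨t, hmem, h⟩)

/-- what happens at the ends of a passage -/
theorem gauge_end {t s : ℝ} (ht : radAlong S γ t = 0 ∨ radAlong S γ t = 1)
    (hv : radVel S γ t ≠ 0) (hs : radAlong S γ s ∈ Ioo (0:ℝ) 1)
    (hsub : ∀ u ∈ uIcc t s, u ≠ t → u ∈ passage S γ s) :
    ContinuousAt (phiF S γ J (gauge S γ s)) t ∧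
    (((radAlong S γ t = 0 ∧ 0 < radVel S γ t) ∨ (radAlong S γ t = 1 ∧ radVel S γ t < 0)) →
      stdFun S.g γ J t ≤ phiF S γ J (gauge S γ s) t) ∧
    (((radAlong S γ t = 0 ∧ radVel S γ t < 0) ∨ (radAlong S γ t = 1 ∧ 0 < radVel S γ t)) →
      phiF S γ J (gauge S γ s) t ≤ stdFun S.g γ J t) ∧
    DifferentiableAt ℝ (fun u => gauge S γ s (ownX γ J t u) (deriv (ownZ γ t) u)) t := by
  have hw : radAlong S γ t ∈ Icc (-(1/4) : ℝ) (5/4) := by rcases ht with h | h <;> rw [h] <;> norm_num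
  have hc := cylJac_own hγ hJ hw hn
  have hz0 : ownZ γ t t 0 = radAlong S γ t := rad_own hγ hJ hw
  have hstd : stdFun S.g γ J t = fStd gC (ownZ γ t) (ownX γ J t) t := by
    rw [(stdFun_eventually hγ hJ t).eq_of_nhds]
    simp only [fStd, (ownG_eventually hγ hJ hw (own_mem t)).eq_of_nhds,
      (covDeriv_cyl hγ hJ hw).eq_of_nhds]
  have hcont : ∀ L : GaugeFun, ContinuousAt
      (phiGauge (fun u => L (ownX γ J t u) (deriv (ownZ γ t) u)) (ownZ γ t) (ownX γ J t)) t →
      ContinuousAt (phiF S γ J L) t := fun L h =>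
    h.congr (phiF_eventually hγ hJ hw L).symm
  have hval : ∀ L : GaugeFun, phiF S γ J L t =
      phiGauge (fun u => L (ownX γ J t u) (deriv (ownZ γ t) u)) (ownZ γ t) (ownX γ J t) t := fun L =>
    (phiF_eventually hγ hJ hw L).eq_of_nhds
  have hX : ∀ i : Fin 3, DifferentiableAt ℝ (fun u => ownX γ J t u i) t := fun i =>
    (EuclideanSpace.proj (𝕜 := ℝ) i).differentiableAt.comp t (hc.field.differentiableAt (by simp))
  have hZ : ∀ i : Fin 3, DifferentiableAt ℝ (fun u => deriv (ownZ γ t) u i) t := fun i =>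
    (EuclideanSpace.proj (𝕜 := ℝ) i).differentiableAt.comp t
      ((hc.curve.derivWithin (m := ∞) (by simp)).differentiableAt (by simp))
  have hmem : s ∈ passage S γ s := mem_connectedComponentIn hs
  -- the momenta at `t` are those of the passage
  have hwin : ∀ u ∈ uIcc t s, radAlong S γ u ∈ Icc (-(1/4) : ℝ) (5/4) := fun u hu => by
    rcases eq_or_ne u t with rfl | hne
    · exact hw
    · exact window_of_collar hγ hJ hn (passage_subset (hsub u hu hne))
  have hmom : ∀ τ ∈ passage S γ s, pV S γ t = pV S γ τ ∧ pU S γ t = pU S γ τ := fun τ hτ => by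
    have h1 := momenta_const hγ hJ (a := t) (b := s) hwin
    have h2 := momenta_const hγ hJ (a := s) (b := τ) fun v hv =>
      window_of_collar hγ hJ hn (passage_subset ((passage_ordConnected s).uIcc_subset hmem hτ hv))
    exact ⟨h1.1.trans h2.1, h1.2.trans h2.2⟩
  have hts : t ≠ s := fun h => by rw [h] at ht; rcases ht with h | h <;> rw [h] at hs <;> simp at hs
  have hlim : ∃ F : Filter ℝ, F.NeBot ∧ F ≤ 𝓝 t ∧ ∀ᶠ u in F, u ∈ passage S γ s := by
    rcases lt_or_gt_of_ne hts with h | h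
    · refine ⟨𝓝[>] t, inferInstance, nhdsWithin_le_nhds, ?_⟩
      filter_upwards [Ioo_mem_nhdsGT h] with u hu
      exact hsub u (mem_uIcc_of_le hu.1.le hu.2.le) hu.1.ne'
    · refine ⟨𝓝[<] t, inferInstance, nhdsWithin_le_nhds, ?_⟩
      filter_upwards [Ioo_mem_nhdsLT h] with u hu
      exact hsub u (mem_uIcc_of_ge hu.1.le hu.2.le) hu.2.ne
  obtain ⟨F, hF, hFt, hFp⟩ := hlim
  have hlim' := ((radAlong_continuous hγ hJ).continuousAt (x := t)).tendsto.mono_left hFt
  unfold gauge
  split_ifs with hB hU h0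
  · obtain ⟨τ, hτ, hv0, hsl⟩ := hB
    have hle : radAlong S γ t ≤ radAlong S γ τ := le_of_tendsto hlim' (hFp.mono fun u hu =>
      turn_left hγ hJ (passage_ordConnected s) (fun v hv => passage_subset hv) hτ hv0 hsl u hu)
    have ht0 : radAlong S γ t = 0 := ht.resolve_right fun h => by
      have := (passage_subset hτ).2; linarith
    have hpos : 0 < qU' (pV S γ t) (pU S γ t) 0 := by
      rw [(hmom τ hτ).1, (hmom τ hτ).2]
      exact hsl.trans_le (qU'_antitone _ _ ⟨le_rfl, zero_le_one⟩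
        (Ioo_subset_Icc_self (passage_subset hτ)) (passage_subset hτ).1.le)
    have hb : deriv (ownZ γ t) t 1 ≠ deriv (ownZ γ t) t 2 := by
      intro h
      have h1 := (bdot_eq (z := ownZ γ t) (own_mem_cyl hγ hJ hw)).1
      rw [sub_eq_zero.2 h, hz0, ht0] at h1
      exact bdot_ne_zero ⟨le_rfl, zero_le_one⟩ hpos h1.symm
    have he : phiF S γ J gauB t = stdFun S.g γ J t := by
      rw [hval, hstd]; exact phiB_left hc (hz0.trans ht0) hb
    exact ⟨hcont gauB (phiB_cont hc hb), fun _ => he.ge, fun _ => he.le,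
      (((hX 1).sub (hX 2)).neg).div ((hZ 1).sub (hZ 2)) (sub_ne_zero.2 hb)⟩
  · obtain ⟨τ, hτ, hv0, hsl⟩ := hU
    have hle : radAlong S γ τ ≤ radAlong S γ t := ge_of_tendsto hlim' (hFp.mono fun u hu =>
      turn_right hγ hJ (passage_ordConnected s) (fun v hv => passage_subset hv) hτ hv0 hsl u hu)
    have ht1 : radAlong S γ t = 1 := ht.resolve_left fun h => by
      have := (passage_subset hτ).1; linarith
    have hneg : qU' (pV S γ t) (pU S γ t) 1 < 0 := by
      rw [(hmom τ hτ).1, (hmom τ hτ).2]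
      exact (qU'_antitone _ _ (Ioo_subset_Icc_self (passage_subset hτ)) ⟨zero_le_one, le_rfl⟩
        (passage_subset hτ).2.le).trans_lt hsl
    have hb : deriv (ownZ γ t) t 2 ≠ 0 := by
      intro h
      have h1 := (bdot_eq (z := ownZ γ t) (own_mem_cyl hγ hJ hw)).2
      rw [h, hz0, ht1] at h1
      exact udot_ne_zero ⟨zero_le_one, le_rfl⟩ hneg h1.symm
    have he : phiF S γ J gauU t = stdFun S.g γ J t := by
      rw [hval, hstd]; exact phiU_right hc (hz0.trans ht1) hb
    exact ⟨hcont gauU (phiU_cont hc hb), fun _ => he.ge, fun _ => he.le,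
      (hX 2).neg.div (hZ 2) hb⟩
  · exfalso
    obtain ⟨τ, hτ, hv0⟩ := h0
    have hsl : slopeU S γ τ = 0 := le_antisymm
      (not_lt.1 fun h => hB ⟨τ, hτ, hv0, h⟩) (not_lt.1 fun h => hU ⟨τ, hτ, hv0, h⟩)
    have hI : ∀ u ∈ uIcc t τ, radAlong S γ u ∈ Ioo (-(1/4) : ℝ) (5/4) := by
      intro u hu
      have hint : ∀ v, v ∈ passage S γ s → radAlong S γ v ∈ Ioo (-(1/4) : ℝ) (5/4) := fun v hv =>
        ⟨lt_trans (by norm_num) (passage_subset hv).1, (passage_subset hv).2.trans (by norm_num)⟩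
      rcases eq_or_ne u t with rfl | hne
      · rcases ht with h | h <;> rw [h] <;> norm_num
      · rcases (uIcc_subset_uIcc_union_uIcc (b := s) hu) with h | h
        · exact hint u (hsub u h hne)
        · exact hint u ((passage_ordConnected s).uIcc_subset hmem hτ h)
    have := rest_const hγ hJ (I := uIcc t τ) ordConnected_uIcc hI right_mem_uIcc hv0 hsl t
      left_mem_uIcc
    have hτ' := passage_subset hτ
    rw [← this] at hτ'
    rcases ht with h | h <;> rw [h] at hτ' <;> simp at hτ'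
  · have hd : deriv (ownZ γ t) t 0 ≠ 0 := hv
    refine ⟨hcont gauT (phiT_cont hc hd), ?_, ?_, (hX 0).neg.div (hZ 0) hd⟩
    · rintro (⟨h, hp⟩ | ⟨h, hp⟩)
      · rw [hval, hstd]; exact (phiT_left hc (hz0.trans h) hd).1 hp
      · rw [hval, hstd]; exact (phiT_right hc (hz0.trans h) hd).1 hp
    · rintro (⟨h, hp⟩ | ⟨h, hp⟩)
      · rw [hval, hstd]; exact (phiT_left hc (hz0.trans h) hd).2 hp
      · rw [hval, hstd]; exact (phiT_right hc (hz0.trans h) hd).2 hp

theorem stdFun_deriv_nonneg {t : ℝ} (ht : radAlong S γ t ∉ Ioo (0:ℝ) 1) :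
    ∃ d, HasDerivAt (stdFun S.g γ J) d t ∧ 0 ≤ d := by
  refine ⟨_, hasDerivAt_stdFun hγ hJ t, sub_nonneg.2 ?_⟩
  exact le_trans (secForm_nonpos_of_rad (x := γ t) ht _ _) (covSq_nonneg hγ hJ t)

theorem bigPhi_right (t : ℝ) : ∀ᶠ s in 𝓝[>] t, bigPhi S γ J t ≤ bigPhi S γ J s := by
  by_cases ht : radAlong S γ t ∈ Ioo (0:ℝ) 1
  · obtain ⟨a, b, hab, hsub⟩ := mem_nhds_iff_exists_Ioo_subset.1
      ((radAlong_continuous hγ hJ).continuousAt.preimage_mem_nhds (isOpen_Ioo.mem_nhds ht))
    filter_upwards [Ioo_mem_nhdsGT hab.2] with s hs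
    have hins : ∀ u ∈ Icc t s, u ∈ Ioo a b := fun u hu => ⟨hab.1.trans_le hu.1, hu.2.trans_lt hs.2⟩
    have hg : ∀ u ∈ Icc t s, gauge S γ u = gauge S γ t := fun u hu =>
      gauge_eq_of_mem (passage_of_interval (fun v hv => hsub hv) hab (hins u hu))
    have hd : ∀ u ∈ Icc t s, ∃ d, HasDerivAt (phiF S γ J (gauge S γ t)) d u ∧ 0 ≤ d := fun u hu => by
      obtain ⟨d, h1, h2, -⟩ := gauge_deriv hγ hJ hn (hsub (hins u hu))
      rw [hg u hu] at h1
      exact ⟨d, h1, h2⟩
    have hmono : MonotoneOn (phiF S γ J (gauge S γ t)) (Icc t s) := by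
      refine monotoneOn_of_deriv_nonneg (convex_Icc t s)
        (fun u hu => ((hd u hu).choose_spec.1).continuousAt.continuousWithinAt)
        (fun u hu => ((hd u (interior_subset hu)).choose_spec.1).differentiableAt.differentiableWithinAt)
        fun u hu => ?_
      rw [((hd u (interior_subset hu)).choose_spec.1).deriv]
      exact (hd u (interior_subset hu)).choose_spec.2
    have hst : radAlong S γ s ∈ Ioo (0:ℝ) 1 := hsub (hins s ⟨hs.1.le, le_rfl⟩)
    simp only [bigPhi, if_pos ht, if_pos hst, hg s ⟨hs.1.le, le_rfl⟩]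
    exact hmono ⟨le_rfl, hs.1.le⟩ ⟨hs.1.le, le_rfl⟩ hs.1.le
  · rcases (side_dichotomy hγ hJ ht).1 with hout | ⟨hin, hside⟩
    · obtain ⟨e, he, hsub⟩ := mem_nhdsGT_iff_exists_Ioo_subset.1 hout
      filter_upwards [Ioo_mem_nhdsGT he] with s hs
      have hns : ∀ u ∈ Icc t s, radAlong S γ u ∉ Ioo (0:ℝ) 1 := fun u hu => by
        rcases hu.1.eq_or_lt with rfl | h
        · exact ht
        · exact hsub ⟨h, hu.2.trans_lt hs.2⟩
      have hmono : MonotoneOn (stdFun S.g γ J) (Icc t s) := by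
        refine monotoneOn_of_deriv_nonneg (convex_Icc t s)
          (fun u _ => (hasDerivAt_stdFun hγ hJ u).continuousAt.continuousWithinAt)
          (fun u _ => (hasDerivAt_stdFun hγ hJ u).differentiableAt.differentiableWithinAt)
          fun u hu => ?_
        obtain ⟨d, h1, h2⟩ := stdFun_deriv_nonneg hγ hJ hn (hns u (interior_subset hu))
        exact h1.deriv ▸ h2
      simp only [bigPhi, if_neg ht, if_neg (hns s ⟨hs.1.le, le_rfl⟩)]
      exact hmono ⟨le_rfl, hs.1.le⟩ ⟨hs.1.le, le_rfl⟩ hs.1.le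
    · obtain ⟨e, he, hsub⟩ := mem_nhdsGT_iff_exists_Ioo_subset.1 hin
      filter_upwards [Ioo_mem_nhdsGT he] with s hs
      have hpass : ∀ u ∈ Ioo t e, u ∈ passage S γ s := fun u hu =>
        passage_of_interval (fun v hv => hsub hv) hs hu
      have hend := gauge_end hγ hJ hn (s := s)
        (by rcases hside with h | h; exacts [.inl h.1, .inr h.1])
        (by rcases hside with h | h; exacts [h.2.ne', h.2.ne]) (hsub hs)
        fun u hu hne => hpass u (by
          rw [uIcc_of_le hs.1.le] at hu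
          exact ⟨lt_of_le_of_ne hu.1 hne.symm, hu.2.trans_lt hs.2⟩)
      have hmono : MonotoneOn (phiF S γ J (gauge S γ s)) (Icc t s) := by
        have hd : ∀ u ∈ Ioo t e, ∃ d, HasDerivAt (phiF S γ J (gauge S γ s)) d u ∧ 0 ≤ d := fun u hu => by
          obtain ⟨d, h1, h2, -⟩ := gauge_deriv hγ hJ hn (hsub hu)
          rw [gauge_eq_of_mem (hpass u hu)] at h1
          exact ⟨d, h1, h2⟩
        refine monotoneOn_of_deriv_nonneg (convex_Icc t s) (fun u hu => ?_) (fun u hu => ?_)
          fun u hu => ?_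
        · rcases hu.1.eq_or_lt with rfl | h
          · exact hend.1.continuousWithinAt
          · exact ((hd u ⟨h, hu.2.trans_lt hs.2⟩).choose_spec.1).continuousAt.continuousWithinAt
        · rw [interior_Icc] at hu
          exact ((hd u ⟨hu.1, hu.2.trans hs.2⟩).choose_spec.1).differentiableAt.differentiableWithinAt
        · rw [interior_Icc] at hu
          obtain ⟨d, h1, h2⟩ := hd u ⟨hu.1, hu.2.trans hs.2⟩
          exact h1.deriv ▸ h2
      have hin' : radAlong S γ s ∈ Ioo (0:ℝ) 1 := hsub hs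
      simp only [bigPhi, if_neg ht, if_pos hin']
      exact (hend.2.1 hside).trans (hmono ⟨le_rfl, hs.1.le⟩ ⟨hs.1.le, le_rfl⟩ hs.1.le)

theorem bigPhi_left (t : ℝ) : ∀ᶠ s in 𝓝[<] t, bigPhi S γ J s ≤ bigPhi S γ J t := by
  by_cases ht : radAlong S γ t ∈ Ioo (0:ℝ) 1
  · obtain ⟨a, b, hab, hsub⟩ := mem_nhds_iff_exists_Ioo_subset.1
      ((radAlong_continuous hγ hJ).continuousAt.preimage_mem_nhds (isOpen_Ioo.mem_nhds ht))
    filter_upwards [Ioo_mem_nhdsLT hab.1] with s hs
    have hins : ∀ u ∈ Icc s t, u ∈ Ioo a b := fun u hu => ⟨hs.1.trans_le hu.1, hu.2.trans_lt hab.2⟩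
    have hg : ∀ u ∈ Icc s t, gauge S γ u = gauge S γ t := fun u hu =>
      gauge_eq_of_mem (passage_of_interval (fun v hv => hsub hv) hab (hins u hu))
    have hd : ∀ u ∈ Icc s t, ∃ d, HasDerivAt (phiF S γ J (gauge S γ t)) d u ∧ 0 ≤ d := fun u hu => by
      obtain ⟨d, h1, h2, -⟩ := gauge_deriv hγ hJ hn (hsub (hins u hu))
      rw [hg u hu] at h1
      exact ⟨d, h1, h2⟩
    have hmono : MonotoneOn (phiF S γ J (gauge S γ t)) (Icc s t) := by
      refine monotoneOn_of_deriv_nonneg (convex_Icc s t)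
        (fun u hu => ((hd u hu).choose_spec.1).continuousAt.continuousWithinAt)
        (fun u hu => ((hd u (interior_subset hu)).choose_spec.1).differentiableAt.differentiableWithinAt)
        fun u hu => ?_
      rw [((hd u (interior_subset hu)).choose_spec.1).deriv]
      exact (hd u (interior_subset hu)).choose_spec.2
    have hst : radAlong S γ s ∈ Ioo (0:ℝ) 1 := hsub (hins s ⟨le_rfl, hs.2.le⟩)
    simp only [bigPhi, if_pos ht, if_pos hst, hg s ⟨le_rfl, hs.2.le⟩]
    exact hmono ⟨le_rfl, hs.2.le⟩ ⟨hs.2.le, le_rfl⟩ hs.2.le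
  · rcases (side_dichotomy hγ hJ ht).2 with hout | ⟨hin, hside⟩
    · obtain ⟨e, he, hsub⟩ := mem_nhdsLT_iff_exists_Ioo_subset.1 hout
      filter_upwards [Ioo_mem_nhdsLT he] with s hs
      have hns : ∀ u ∈ Icc s t, radAlong S γ u ∉ Ioo (0:ℝ) 1 := fun u hu => by
        rcases hu.2.eq_or_lt with rfl | h
        · exact ht
        · exact hsub ⟨hs.1.trans_le hu.1, h⟩
      have hmono : MonotoneOn (stdFun S.g γ J) (Icc s t) := by
        refine monotoneOn_of_deriv_nonneg (convex_Icc s t)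
          (fun u _ => (hasDerivAt_stdFun hγ hJ u).continuousAt.continuousWithinAt)
          (fun u _ => (hasDerivAt_stdFun hγ hJ u).differentiableAt.differentiableWithinAt)
          fun u hu => ?_
        obtain ⟨d, h1, h2⟩ := stdFun_deriv_nonneg hγ hJ hn (hns u (interior_subset hu))
        exact h1.deriv ▸ h2
      simp only [bigPhi, if_neg ht, if_neg (hns s ⟨le_rfl, hs.2.le⟩)]
      exact hmono ⟨le_rfl, hs.2.le⟩ ⟨hs.2.le, le_rfl⟩ hs.2.le
    · obtain ⟨e, he, hsub⟩ := mem_nhdsLT_iff_exists_Ioo_subset.1 hin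
      filter_upwards [Ioo_mem_nhdsLT he] with s hs
      have hpass : ∀ u ∈ Ioo e t, u ∈ passage S γ s := fun u hu =>
        passage_of_interval (fun v hv => hsub hv) hs hu
      have hend := gauge_end hγ hJ hn (s := s)
        (by rcases hside with h | h; exacts [.inl h.1, .inr h.1])
        (by rcases hside with h | h; exacts [h.2.ne, h.2.ne']) (hsub hs)
        fun u hu hne => hpass u (by
          rw [uIcc_of_ge hs.2.le] at hu
          exact ⟨hs.1.trans_le hu.1, lt_of_le_of_ne hu.2 hne⟩)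
      have hmono : MonotoneOn (phiF S γ J (gauge S γ s)) (Icc s t) := by
        have hd : ∀ u ∈ Ioo e t, ∃ d, HasDerivAt (phiF S γ J (gauge S γ s)) d u ∧ 0 ≤ d := fun u hu => by
          obtain ⟨d, h1, h2, -⟩ := gauge_deriv hγ hJ hn (hsub hu)
          rw [gauge_eq_of_mem (hpass u hu)] at h1
          exact ⟨d, h1, h2⟩
        refine monotoneOn_of_deriv_nonneg (convex_Icc s t) (fun u hu => ?_) (fun u hu => ?_)
          fun u hu => ?_
        · rcases hu.2.eq_or_lt with rfl | h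
          · exact hend.1.continuousWithinAt
          · exact ((hd u ⟨hs.1.trans_le hu.1, h⟩).choose_spec.1).continuousAt.continuousWithinAt
        · rw [interior_Icc] at hu
          exact ((hd u ⟨hs.1.trans hu.1, hu.2⟩).choose_spec.1).differentiableAt.differentiableWithinAt
        · rw [interior_Icc] at hu
          obtain ⟨d, h1, h2⟩ := hd u ⟨hs.1.trans hu.1, hu.2⟩
          exact h1.deriv ▸ h2
      have hin' : radAlong S γ s ∈ Ioo (0:ℝ) 1 := hsub hs
      simp only [bigPhi, if_neg ht, if_pos hin']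
      exact (hmono ⟨le_rfl, hs.2.le⟩ ⟨hs.2.le, le_rfl⟩ hs.2.le).trans (hend.2.2.1 hside)

theorem bigPhi_monotone : Monotone (bigPhi S γ J) :=
  monotone_of_local (bigPhi_right hγ hJ hn) (bigPhi_left hγ hJ hn)

omit hn in
theorem bigPhi_zero {t : ℝ} (h : J t = 0) : bigPhi S γ J t = 0 := by
  have hX : ownX γ J t t = 0 := by simp only [ownX, fieldInChart, h]; exact map_zero _
  have hF : stdFun S.g γ J t = 0 := by simp [stdFun, fStd, hX]
  have hL : ∀ X v : E3, X = 0 → gauge S γ t X v = 0 := by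
    intro X v hX
    unfold gauge
    split_ifs <;> simp [gauB, gauU, gau0, gauT, hX]
  unfold bigPhi
  split_ifs
  · simp [phiF, hF, hX, hL 0 _ rfl, bdry]
  · exact hF

end Vale.Agent.P255
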