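import Vale.Agent.P255.Cylinder.Gauge

/-!
# P255: the potential `U` and the boundary form along the cylinder
-/

open scoped ContDiff
open Set Filter Topology

namespace Vale.Agent.P255

theorem contDiffAt_of_cylI {f : ℝ → ℝ} (hf : ContDiffOn ℝ ∞ f cylI) {r : ℝ} (hr : r ∈ cylI) :
    ContDiffAt ℝ ∞ f r :=
  hf.contDiffAt (isOpen_Ioo.mem_nhds hr)

theorem hasDerivAt_of_cylI {f : ℝ → ℝ} (hf : ContDiffOn ℝ ∞ f cylI) {r : ℝ} (hr : r ∈ cylI) :
    HasDerivAt f (deriv f r) r :=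
  ((contDiffAt_of_cylI hf hr).differentiableAt (by simp)).hasDerivAt

theorem deriv_smooth {f : ℝ → ℝ} (hf : ContDiffOn ℝ ∞ f cylI) :
    ContDiffOn ℝ ∞ (deriv f) cylI :=
  hf.deriv_of_isOpen isOpen_Ioo le_rfl

theorem hasDerivAt_qf {a m c : ℝ → ℝ} {a' m' c' r : ℝ} (ha : HasDerivAt a a' r)
    (hm : HasDerivAt m m' r) (hc : HasDerivAt c c' r) (x z : ℝ) :
    HasDerivAt (fun s => qf (a s) (m s) (c s) x z) (qf a' m' c' x z) r := by
  have := (((ha.mul_const (x ^ 2)).fun_add (((hm.const_mul 2).mul_const x).mul_const z)).fun_add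
    (hc.mul_const (z ^ 2)))
  exact this

theorem hasDerivAt_qU {r : ℝ} (hr : r ∈ cylI) (x z : ℝ) :
    HasDerivAt (qU x z) (qU' x z r) r :=
  hasDerivAt_qf (hasDerivAt_of_cylI qA_smooth hr) (hasDerivAt_of_cylI qM_smooth hr)
    (hasDerivAt_of_cylI qG_smooth hr) x z

theorem hasDerivAt_qU' {r : ℝ} (hr : r ∈ cylI) (x z : ℝ) :
    HasDerivAt (qU' x z) (qU'' x z r) r :=
  hasDerivAt_qf (hasDerivAt_of_cylI (deriv_smooth qA_smooth) hr)
    (hasDerivAt_of_cylI (deriv_smooth qM_smooth) hr)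
    (hasDerivAt_of_cylI (deriv_smooth qG_smooth) hr) x z

theorem Icc01_subset_cylI : Icc (0 : ℝ) 1 ⊆ cylI := fun r hr =>
  ⟨lt_of_lt_of_le (by norm_num) hr.1, lt_of_le_of_lt hr.2 (by norm_num)⟩

theorem qU'_antitone (x z : ℝ) : AntitoneOn (qU' x z) (Icc 0 1) := by
  refine antitoneOn_of_deriv_nonpos (convex_Icc 0 1)
    (fun r hr => (hasDerivAt_qU' (Icc01_subset_cylI hr) x z).continuousAt.continuousWithinAt)
    (fun r hr => (hasDerivAt_qU' (Icc01_subset_cylI (interior_subset hr)) x z).differentiableAt.differentiableWithinAt)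
    fun r hr => ?_
  rw [(hasDerivAt_qU' (Icc01_subset_cylI (interior_subset hr)) x z).deriv]
  exact collar_concave (interior_subset hr) x z

theorem deriv_zero_of_const_le {f : ℝ → ℝ} {c : ℝ} (hf : ContDiffOn ℝ ∞ f cylI)
    (h : ∀ r ∈ cylI, r ≤ 0 → f r = c) : deriv f 0 = 0 := by
  have h0 : (0 : ℝ) ∈ cylI := Icc01_subset_cylI ⟨le_rfl, zero_le_one⟩
  have h1 : HasDerivWithinAt f (deriv f 0) (Iic 0) 0 :=
    (hasDerivAt_of_cylI hf h0).hasDerivWithinAt
  have h2 : HasDerivWithinAt f 0 (Iic 0) 0 := by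
    refine (hasDerivWithinAt_const (0:ℝ) (Iic 0) c).congr_of_eventuallyEq ?_ (h 0 h0 le_rfl)
    filter_upwards [self_mem_nhdsWithin, mem_nhdsWithin_of_mem_nhds (isOpen_Ioo.mem_nhds h0)]
      with r hr hr'
    exact h r hr' hr
  exact (uniqueDiffWithinAt_Iic (0:ℝ)).eq_deriv _ h1 h2

theorem deriv_zero_of_const_ge {f : ℝ → ℝ} {c : ℝ} (hf : ContDiffOn ℝ ∞ f cylI)
    (h : ∀ r ∈ cylI, 1 ≤ r → f r = c) : deriv f 1 = 0 := by
  have h0 : (1 : ℝ) ∈ cylI := Icc01_subset_cylI ⟨zero_le_one, le_rfl⟩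
  have h1 : HasDerivWithinAt f (deriv f 1) (Ici 1) 1 :=
    (hasDerivAt_of_cylI hf h0).hasDerivWithinAt
  have h2 : HasDerivWithinAt f 0 (Ici 1) 1 := by
    refine (hasDerivWithinAt_const (1:ℝ) (Ici 1) c).congr_of_eventuallyEq ?_ (h 1 h0 le_rfl)
    filter_upwards [self_mem_nhdsWithin, mem_nhdsWithin_of_mem_nhds (isOpen_Ioo.mem_nhds h0)]
      with r hr hr'
    exact h r hr' hr
  exact (uniqueDiffWithinAt_Ici (1:ℝ)).eq_deriv _ h1 h2

theorem qU'_zero_nonneg (x z : ℝ) : 0 ≤ qU' x z 0 := by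
  have h0 : (0 : ℝ) ∈ cylI := Icc01_subset_cylI ⟨le_rfl, zero_le_one⟩
  have hM : deriv qM 0 = 0 := deriv_zero_of_const_le qM_smooth fun r _ hr => qM_left hr
  have hG : deriv qG 0 = 0 := deriv_zero_of_const_le qG_smooth fun r h hr => qG_left h hr
  have hw := hasDerivAt_of_cylI wL_smooth h0
  have hp := wL_pos h0
  have hA : HasDerivAt qA (-(2 * wL 0 * deriv wL 0) / (wL 0 ^ 2) ^ 2) 0 := by
    have := ((hw.fun_pow 2).inv (pow_ne_zero 2 hp.ne')).const_add 1
    refine (this.congr_deriv ?_).congr_of_eventuallyEq (Eventually.of_forall fun r => by simp [qA])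
    push_cast
    ring
  simp only [qU', qf, hM, hG, hA.deriv]
  have : 0 ≤ -(2 * wL 0 * deriv wL 0) / (wL 0 ^ 2) ^ 2 :=
    div_nonneg (by nlinarith [(wL_convex h0 le_rfl).1]) (by positivity)
  nlinarith [sq_nonneg x]

theorem qU'_one_nonpos (x z : ℝ) : qU' x z 1 ≤ 0 := by
  have h0 : (1 : ℝ) ∈ cylI := Icc01_subset_cylI ⟨zero_le_one, le_rfl⟩
  have hM : deriv qM 1 = 0 := deriv_zero_of_const_ge qM_smooth fun r _ hr => qM_right hr
  have hA : deriv qA 1 = 0 := deriv_zero_of_const_ge qA_smooth fun r h hr => qA_right h hr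
  have hw := hasDerivAt_of_cylI wR_smooth h0
  have hp := wR_pos h0
  have hG : HasDerivAt qG (-(2 * wR 1 * deriv wR 1) / (wR 1 ^ 2) ^ 2) 1 := by
    have := (hw.fun_pow 2).inv (pow_ne_zero 2 hp.ne')
    refine (this.congr_deriv ?_).congr_of_eventuallyEq (Eventually.of_forall fun r => by simp [qG])
    push_cast
    ring
  simp only [qU', qf, hM, hA, hG.deriv]
  have : -(2 * wR 1 * deriv wR 1) / (wR 1 ^ 2) ^ 2 ≤ 0 :=
    div_nonpos_of_nonpos_of_nonneg (by nlinarith [(wR_convex h0 le_rfl).1]) (by positivity)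
  nlinarith [sq_nonneg z]

theorem gCm_smooth (i j : Fin 3) : ContDiffOn ℝ ∞ (fun r => gCm r i j) cylI := by
  have hD : ContDiffOn ℝ ∞ qD cylI := (qA_smooth.mul qG_smooth).sub (qM_smooth.pow 2)
  have hne : ∀ r ∈ cylI, qD r ≠ 0 := fun r hr => (qD_pos hr).ne'
  fin_cases i <;> fin_cases j <;>
    simp only [gCm, Matrix.cons_val, Fin.zero_eta, Fin.mk_one, Fin.reduceFinMk, Matrix.cons_val_zero,
      Matrix.cons_val_one] <;>
    first
    | exact contDiffOn_const
    | exact qG_smooth.div hD hne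
    | exact qA_smooth.div hD hne
    | exact qM_smooth.neg.div hD hne

theorem gCr_continuousAt {y : E3} (hy : y 0 ∈ cylI) : ContinuousAt gCr y := by
  have h : ∀ i j, ContinuousAt (fun w : E3 => deriv (fun r => gCm r i j) (w 0)) y := fun i j =>
    ((contDiffAt_of_cylI (deriv_smooth (gCm_smooth i j)) hy).continuousAt).comp
      (f := fun w : E3 => w 0) (PiLp.continuous_apply 2 _ (0 : Fin 3)).continuousAt
  have : ContinuousAdd (Form 3) :=
    (inferInstance : IsTopologicalAddGroup (Form 3)).toContinuousAdd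
  unfold gCr formOf
  exact tendsto_finsetSum _ fun i _ => tendsto_finsetSum _ fun j _ => (h i j).smul tendsto_const_nhds

/-- a bilinear pairing of two vanishing factors has derivative `0` -/
theorem hasDerivAt_apply_zero {h : ℝ → E3 →L[ℝ] ℝ} {f : ℝ → E3} {f' : E3} {a : ℝ}
    (hh : ContinuousAt h a) (h0 : h a = 0) (hf : HasDerivAt f f' a) (f0 : f a = 0) :
    HasDerivAt (fun s => h s (f s)) 0 a := by
  rw [hasDerivAt_iff_isLittleO]
  have h1 : (fun s => f s) =O[𝓝 a] fun s => s - a := by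
    have := hf.hasFDerivAt.isBigO_sub
    simpa [f0] using this
  have h2 : (fun s => ‖h s‖) =o[𝓝 a] fun _ => (1 : ℝ) := by
    rw [Asymptotics.isLittleO_one_iff]
    simpa [h0] using hh.tendsto.norm
  have h3 : (fun s => ‖h s‖ * ‖f s‖) =o[𝓝 a] fun s => s - a := by
    simpa using h2.mul_isBigO h1.norm_left
  have h4 : (fun s => h s (f s)) =O[𝓝 a] fun s => ‖h s‖ * ‖f s‖ :=
    Asymptotics.IsBigO.of_bound' (Eventually.of_forall fun s => by
      simpa [abs_mul] using (h s).le_opNorm (f s))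
  simpa [f0] using h4.trans_isLittleO h3

end Vale.Agent.P255
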