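import Vale.Agent.P255.Main.Collar
import Vale.Agent.P255.Main.ProfileFacts

/-!
# P255: the behaviour of a geodesic on a maximal interval in the collar
-/

open scoped Manifold ContDiff
open Bundle Set Filter Topology

namespace Vale.Agent.P255

theorem eventually_right_pos {f : ℝ → ℝ} {f' t : ℝ} (h : HasDerivAt f f' t) (hf : 0 < f') :
    ∀ᶠ s in 𝓝[>] t, f t < f s := by
  have := (hasDerivAt_iff_tendsto_slope.1 h).eventually (eventually_gt_nhds hf)
  filter_upwards [this.filter_mono (nhdsGT_le_nhdsNE t), self_mem_nhdsWithin] with s hs hts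
  have hts' : 0 < s - t := sub_pos.2 hts
  rw [slope_def_field, lt_div_iff₀ hts'] at hs
  linarith

theorem eventually_left_pos {f : ℝ → ℝ} {f' t : ℝ} (h : HasDerivAt f f' t) (hf : 0 < f') :
    ∀ᶠ s in 𝓝[<] t, f s < f t := by
  have := (hasDerivAt_iff_tendsto_slope.1 h).eventually (eventually_gt_nhds hf)
  filter_upwards [this.filter_mono (nhdsLT_le_nhdsNE t), self_mem_nhdsWithin] with s hs hts
  have hts' : s - t < 0 := sub_neg.2 hts
  rw [slope_def_field, lt_div_iff_of_neg hts'] at hs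
  linarith

theorem eventually_right_neg {f : ℝ → ℝ} {f' t : ℝ} (h : HasDerivAt f f' t) (hf : f' < 0) :
    ∀ᶠ s in 𝓝[>] t, f s < f t :=
  (eventually_right_pos h.neg (neg_pos.2 hf)).mono fun _ hs => neg_lt_neg_iff.1 hs

theorem eventually_left_neg {f : ℝ → ℝ} {f' t : ℝ} (h : HasDerivAt f f' t) (hf : f' < 0) :
    ∀ᶠ s in 𝓝[<] t, f t < f s :=
  (eventually_left_pos h.neg (neg_pos.2 hf)).mono fun _ hs => neg_lt_neg_iff.1 hs

/-- a critical point with negative second derivative is a strict local maximum -/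
theorem local_max_of_second {f f' : ℝ → ℝ} {f'' t : ℝ} (h : ∀ᶠ s in 𝓝 t, HasDerivAt f (f' s) s)
    (h0 : f' t = 0) (h2 : HasDerivAt f' f'' t) (hneg : f'' < 0) :
    (∀ᶠ s in 𝓝[>] t, f s < f t) ∧ ∀ᶠ s in 𝓝[<] t, f s < f t := by
  obtain ⟨a, b, hab, hsub⟩ := mem_nhds_iff_exists_Ioo_subset.1 h
  constructor
  · obtain ⟨e, he, hesub⟩ := mem_nhdsGT_iff_exists_Ioo_subset.1
      (eventually_right_neg h2 hneg)
    have hte : t < min e b := lt_min he hab.2
    filter_upwards [Ioo_mem_nhdsGT hte] with s hs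
    have hsub' : ∀ u ∈ Icc t s, HasDerivAt f (f' u) u := fun u hu =>
      hsub ⟨hab.1.trans_le hu.1, hu.2.trans_lt (hs.2.trans_le (min_le_right _ _))⟩
    have anti : StrictAntiOn f (Icc t s) := by
      refine strictAntiOn_of_deriv_neg (convex_Icc t s)
        (fun u hu => (hsub' u hu).continuousAt.continuousWithinAt) fun u hu => ?_
      rw [interior_Icc] at hu
      rw [(hsub' u (Ioo_subset_Icc_self hu)).deriv, ← h0]
      exact hesub ⟨hu.1, hu.2.trans (hs.2.trans_le (min_le_left _ _))⟩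
    exact anti ⟨le_rfl, hs.1.le⟩ ⟨hs.1.le, le_rfl⟩ hs.1
  · obtain ⟨e, he, hesub⟩ := mem_nhdsLT_iff_exists_Ioo_subset.1
      (eventually_left_neg h2 hneg)
    have hte : max e a < t := max_lt he hab.1
    filter_upwards [Ioo_mem_nhdsLT hte] with s hs
    have hsub' : ∀ u ∈ Icc s t, HasDerivAt f (f' u) u := fun u hu =>
      hsub ⟨((le_max_right _ _).trans_lt hs.1).trans_le hu.1, hu.2.trans_lt hab.2⟩
    have mono : StrictMonoOn f (Icc s t) := by
      refine strictMonoOn_of_deriv_pos (convex_Icc s t)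
        (fun u hu => (hsub' u hu).continuousAt.continuousWithinAt) fun u hu => ?_
      rw [interior_Icc] at hu
      rw [(hsub' u (Ioo_subset_Icc_self hu)).deriv, ← h0]
      exact hesub ⟨((le_max_left _ _).trans_lt hs.1).trans hu.1, hu.2⟩
    exact mono ⟨le_rfl, hs.2.le⟩ ⟨hs.2.le, le_rfl⟩ hs.2

variable {S : ModelSpec} {γ : ℝ → S.M} {J : ∀ t, TangentSpace (𝓡 3) (γ t)}
variable (hγ : IsGeodesic S.g γ) (hJ : IsJacobi S.g γ J)
include hγ hJ

theorem momenta_const {a b : ℝ} (hw : ∀ s ∈ uIcc a b, radAlong S γ s ∈ Icc (-(1/4) : ℝ) (5/4)) :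
    pV S γ a = pV S γ b ∧ pU S γ a = pU S γ b := by
  wlog hab : a ≤ b generalizing a b
  · have := this (a := b) (b := a) (by rwa [uIcc_comm]) (le_of_not_ge hab)
    exact ⟨this.1.symm, this.2.symm⟩
  rw [uIcc_of_le hab] at hw
  constructor
  · exact (constant_of_has_deriv_right_zero
      (fun s hs => (hasDerivAt_pV hγ hJ (hw s hs)).continuousAt.continuousWithinAt)
      (fun s hs => (hasDerivAt_pV hγ hJ (hw s (Ico_subset_Icc_self hs))).hasDerivWithinAt)
      b ⟨hab, le_rfl⟩).symm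
  · exact (constant_of_has_deriv_right_zero
      (fun s hs => (hasDerivAt_pU hγ hJ (hw s hs)).continuousAt.continuousWithinAt)
      (fun s hs => (hasDerivAt_pU hγ hJ (hw s (Ico_subset_Icc_self hs))).hasDerivWithinAt)
      b ⟨hab, le_rfl⟩).symm

theorem deriv_radAlong {t : ℝ} (ht : radAlong S γ t ∈ Icc (-(1/4) : ℝ) (5/4)) :
    deriv (radAlong S γ) t = radVel S γ t :=
  (hasDerivAt_radAlong hγ hJ ht).deriv

/-- a rest point stays -/
theorem rest_const {I : Set ℝ} (hI : I.OrdConnected)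
    (hw : ∀ s ∈ I, radAlong S γ s ∈ Ioo (-(1/4) : ℝ) (5/4)) {τ : ℝ} (hτ : τ ∈ I)
    (h0 : radVel S γ τ = 0) (h1 : slopeU S γ τ = 0) :
    ∀ s ∈ I, radAlong S γ s = radAlong S γ τ := by
  refine equilibrium_const (x := pV S γ τ) (w := pU S γ τ) hI ?_ ?_ ?_ hτ ?_ h1
  · exact fun s hs => ⟨lt_trans (by norm_num) (hw s hs).1, (hw s hs).2.trans (by norm_num)⟩
  · exact fun s hs => (hasDerivAt_radAlong hγ hJ (Ioo_subset_Icc_self (hw s hs))).differentiableAt
  · intro s hs
    have hc := momenta_const hγ hJ (a := s) (b := τ) fun u hu =>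
      Ioo_subset_Icc_self (hw u (hI.uIcc_subset hs hτ hu))
    have hev : deriv (radAlong S γ) =ᶠ[𝓝 s] radVel S γ := by
      filter_upwards [(radAlong_continuous hγ hJ).continuousAt.preimage_mem_nhds
        (isOpen_Ioo.mem_nhds (hw s hs))] with u hu
      exact deriv_radAlong hγ hJ (Ioo_subset_Icc_self hu)
    refine ((hasDerivAt_radVel hγ hJ (Ioo_subset_Icc_self (hw s hs))).congr_of_eventuallyEq
      hev).congr_deriv ?_
    rw [slopeU, hc.1, hc.2]
  · rw [deriv_radAlong hγ hJ (Ioo_subset_Icc_self (hw τ hτ))]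
    exact h0

/-- on each side of a boundary point the geodesic is outside the open collar, or it crosses -/
theorem side_dichotomy {t : ℝ} (ht : radAlong S γ t ∉ Ioo (0:ℝ) 1) :
    ((∀ᶠ s in 𝓝[>] t, radAlong S γ s ∉ Ioo (0:ℝ) 1) ∨
      ((∀ᶠ s in 𝓝[>] t, radAlong S γ s ∈ Ioo (0:ℝ) 1) ∧
        ((radAlong S γ t = 0 ∧ 0 < radVel S γ t) ∨
         (radAlong S γ t = 1 ∧ radVel S γ t < 0)))) ∧
    ((∀ᶠ s in 𝓝[<] t, radAlong S γ s ∉ Ioo (0:ℝ) 1) ∨
      ((∀ᶠ s in 𝓝[<] t, radAlong S γ s ∈ Ioo (0:ℝ) 1) ∧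
        ((radAlong S γ t = 0 ∧ radVel S γ t < 0) ∨
         (radAlong S γ t = 1 ∧ 0 < radVel S γ t)))) := by
  have hc := (radAlong_continuous hγ hJ).continuousAt (x := t)
  rcases lt_trichotomy (radAlong S γ t) 0 with hlt | heq | hgt
  · have := hc.eventually_lt continuousAt_const hlt
    exact ⟨.inl ((this.filter_mono nhdsWithin_le_nhds).mono fun s hs h => (hs.trans h.1).false),
      .inl ((this.filter_mono nhdsWithin_le_nhds).mono fun s hs h => (hs.trans h.1).false)⟩
  · have hw : radAlong S γ t ∈ Icc (-(1/4) : ℝ) (5/4) := by rw [heq]; norm_num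
    have h1 : ∀ᶠ s in 𝓝 t, radAlong S γ s < 1 := hc.eventually_lt continuousAt_const (by rw [heq]; norm_num)
    have hd := hasDerivAt_radAlong hγ hJ hw
    rcases lt_trichotomy (radVel S γ t) 0 with hv | hv | hv
    · refine ⟨.inl ((eventually_right_neg hd hv).mono fun s hs h => ?_),
        .inr ⟨?_, .inl ⟨heq, hv⟩⟩⟩
      · rw [heq] at hs; exact (hs.trans h.1).false
      · filter_upwards [eventually_left_neg hd hv, h1.filter_mono nhdsWithin_le_nhds] with s hs hs1
        exact ⟨heq ▸ hs, hs1⟩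
    · have hU : 0 ≤ slopeU S γ t := by rw [slopeU, heq]; exact qU'_zero_nonneg _ _
      rcases hU.eq_or_lt with hU0 | hU0
      · have hwin := hc.preimage_mem_nhds (isOpen_Ioo.mem_nhds
          (show radAlong S γ t ∈ Ioo (-(1/4) : ℝ) (5/4) by rw [heq]; norm_num))
        obtain ⟨a, b, hab, hsub⟩ := mem_nhds_iff_exists_Ioo_subset.1 hwin
        have hconst := rest_const hγ hJ (I := Ioo a b) ordConnected_Ioo (fun s hs => hsub hs) hab hv
          hU0.symm
        have : ∀ᶠ s in 𝓝 t, radAlong S γ s ∉ Ioo (0:ℝ) 1 := by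
          filter_upwards [Ioo_mem_nhds hab.1 hab.2] with s hs h
          rw [hconst s hs, heq] at h
          exact lt_irrefl _ h.1
        exact ⟨.inl (this.filter_mono nhdsWithin_le_nhds), .inl (this.filter_mono nhdsWithin_le_nhds)⟩
      · have hev : ∀ᶠ s in 𝓝 t, HasDerivAt (radAlong S γ) (radVel S γ s) s := by
          filter_upwards [hc.preimage_mem_nhds (Icc_mem_nhds
            (show -(1/4:ℝ) < radAlong S γ t by rw [heq]; norm_num)
            (show radAlong S γ t < 5/4 by rw [heq]; norm_num))] with s hs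
          exact hasDerivAt_radAlong hγ hJ hs
        obtain ⟨hr, hl⟩ := local_max_of_second hev hv (hasDerivAt_radVel hγ hJ hw) (by linarith)
        rw [heq] at hr hl
        exact ⟨.inl (hr.mono fun s hs h => (hs.trans h.1).false),
          .inl (hl.mono fun s hs h => (hs.trans h.1).false)⟩
    · refine ⟨.inr ⟨?_, .inl ⟨heq, hv⟩⟩,
        .inl ((eventually_left_pos hd hv).mono fun s hs h => ?_)⟩
      · filter_upwards [eventually_right_pos hd hv, h1.filter_mono nhdsWithin_le_nhds] with s hs hs1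
        exact ⟨heq ▸ hs, hs1⟩
      · rw [heq] at hs; exact (hs.trans h.1).false
  · have h1 : 1 ≤ radAlong S γ t := not_lt.1 fun h => ht ⟨hgt, h⟩
    rcases h1.eq_or_lt with heq | hlt
    · have heq : radAlong S γ t = 1 := heq.symm
      have hw : radAlong S γ t ∈ Icc (-(1/4) : ℝ) (5/4) := by rw [heq]; norm_num
      have h0 : ∀ᶠ s in 𝓝 t, 0 < radAlong S γ s := continuousAt_const.eventually_lt hc hgt
      have hd := hasDerivAt_radAlong hγ hJ hw
      rcases lt_trichotomy (radVel S γ t) 0 with hv | hv | hv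
      · refine ⟨.inr ⟨?_, .inr ⟨heq, hv⟩⟩,
          .inl ((eventually_left_neg hd hv).mono fun s hs h => ?_)⟩
        · filter_upwards [eventually_right_neg hd hv, h0.filter_mono nhdsWithin_le_nhds] with s hs hs0
          exact ⟨hs0, heq ▸ hs⟩
        · rw [heq] at hs; exact (hs.trans h.2).false
      · have hU : slopeU S γ t ≤ 0 := by rw [slopeU, heq]; exact qU'_one_nonpos _ _
        rcases hU.eq_or_lt with hU0 | hU0
        · have hwin := hc.preimage_mem_nhds (isOpen_Ioo.mem_nhds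
            (show radAlong S γ t ∈ Ioo (-(1/4) : ℝ) (5/4) by rw [heq]; norm_num))
          obtain ⟨a, b, hab, hsub⟩ := mem_nhds_iff_exists_Ioo_subset.1 hwin
          have hconst := rest_const hγ hJ (I := Ioo a b) ordConnected_Ioo (fun s hs => hsub hs) hab hv
            hU0
          have : ∀ᶠ s in 𝓝 t, radAlong S γ s ∉ Ioo (0:ℝ) 1 := by
            filter_upwards [Ioo_mem_nhds hab.1 hab.2] with s hs h
            rw [hconst s hs, heq] at h
            exact lt_irrefl _ h.2
          exact ⟨.inl (this.filter_mono nhdsWithin_le_nhds),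
            .inl (this.filter_mono nhdsWithin_le_nhds)⟩
        · have hev : ∀ᶠ s in 𝓝 t, HasDerivAt (fun u => -radAlong S γ u) (-radVel S γ s) s := by
            filter_upwards [hc.preimage_mem_nhds (Icc_mem_nhds
              (show -(1/4:ℝ) < radAlong S γ t by rw [heq]; norm_num)
              (show radAlong S γ t < 5/4 by rw [heq]; norm_num))] with s hs
            exact (hasDerivAt_radAlong hγ hJ hs).neg
          obtain ⟨hr, hl⟩ := local_max_of_second hev (show -radVel S γ t = 0 by rw [hv]; simp)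
            (hasDerivAt_radVel hγ hJ hw).neg (by linarith)
          simp only [heq, neg_lt_neg_iff] at hr hl
          exact ⟨.inl (hr.mono fun s hs h => (hs.trans h.2).false),
            .inl (hl.mono fun s hs h => (hs.trans h.2).false)⟩
      · refine ⟨.inl ((eventually_right_pos hd hv).mono fun s hs h => ?_),
          .inr ⟨?_, .inr ⟨heq, hv⟩⟩⟩
        · rw [heq] at hs; exact (hs.trans h.2).false
        · filter_upwards [eventually_left_pos hd hv, h0.filter_mono nhdsWithin_le_nhds] with s hs hs0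
          exact ⟨hs0, heq ▸ hs⟩
    · have := continuousAt_const.eventually_lt hc hlt
      exact ⟨.inl ((this.filter_mono nhdsWithin_le_nhds).mono fun s hs h => (hs.trans h.2).false),
        .inl ((this.filter_mono nhdsWithin_le_nhds).mono fun s hs h => (hs.trans h.2).false)⟩

/-- beyond a turning point with `U' > 0` the radius does not go -/
theorem turn_left {I : Set ℝ} (hI : I.OrdConnected) (hin : ∀ s ∈ I, radAlong S γ s ∈ Ioo (0:ℝ) 1)
    {τ : ℝ} (hτ : τ ∈ I) (h0 : radVel S γ τ = 0) (h1 : 0 < slopeU S γ τ) :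
    ∀ s ∈ I, radAlong S γ s ≤ radAlong S γ τ := by
  intro s hs
  by_contra hgt
  push Not at hgt
  set ρ := radAlong S γ τ
  have hρ := hin τ hτ
  have hpos := eventually_right_pos (hasDerivAt_qU (Icc01_subset_cylI (Ioo_subset_Icc_self hρ))
    (pV S γ τ) (pU S γ τ)) (show 0 < qU' (pV S γ τ) (pU S γ τ) ρ from h1)
  obtain ⟨r, hr, hr2⟩ := (hpos.and (Ioo_mem_nhdsGT hgt)).exists
  obtain ⟨u, hu, hur⟩ := intermediate_value_uIcc
    (radAlong_continuous hγ hJ).continuousOn (mem_uIcc_of_le hr2.1.le hr2.2.le)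
  have hwin : ∀ v ∈ uIcc τ s, radAlong S γ v ∈ Icc (-(1/4) : ℝ) (5/4) := fun v hv => by
    have := hin v (hI.uIcc_subset hτ hs hv)
    exact ⟨le_trans (by norm_num) this.1.le, this.2.le.trans (by norm_num)⟩
  have eu := speedSq_energy hγ hJ (hwin u hu)
  have eτ := speedSq_energy hγ hJ (hwin τ left_mem_uIcc)
  have hc := momenta_const hγ hJ (a := τ) (b := u) fun v hv =>
    hwin v (uIcc_subset_uIcc left_mem_uIcc hu hv)
  rw [← hc.1, ← hc.2, hur] at eu
  rw [h0, speedSq_const hγ hJ τ u, eu] at eτ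
  nlinarith [sq_nonneg (radVel S γ u)]

/-- before a turning point with `U' < 0` the radius does not go -/
theorem turn_right {I : Set ℝ} (hI : I.OrdConnected) (hin : ∀ s ∈ I, radAlong S γ s ∈ Ioo (0:ℝ) 1)
    {τ : ℝ} (hτ : τ ∈ I) (h0 : radVel S γ τ = 0) (h1 : slopeU S γ τ < 0) :
    ∀ s ∈ I, radAlong S γ τ ≤ radAlong S γ s := by
  intro s hs
  by_contra hgt
  push Not at hgt
  set ρ := radAlong S γ τ
  have hρ := hin τ hτ
  have hneg := eventually_left_neg (hasDerivAt_qU (Icc01_subset_cylI (Ioo_subset_Icc_self hρ))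
    (pV S γ τ) (pU S γ τ)) (show qU' (pV S γ τ) (pU S γ τ) ρ < 0 from h1)
  obtain ⟨r, hr, hr2⟩ := (hneg.and (Ioo_mem_nhdsLT hgt)).exists
  obtain ⟨u, hu, hur⟩ := intermediate_value_uIcc
    (radAlong_continuous hγ hJ).continuousOn
    (show r ∈ uIcc (radAlong S γ τ) (radAlong S γ s) from mem_uIcc_of_ge hr2.1.le hr2.2.le)
  have hwin : ∀ v ∈ uIcc τ s, radAlong S γ v ∈ Icc (-(1/4) : ℝ) (5/4) := fun v hv => by
    have := hin v (hI.uIcc_subset hτ hs hv)
    exact ⟨le_trans (by norm_num) this.1.le, this.2.le.trans (by norm_num)⟩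
  have eu := speedSq_energy hγ hJ (hwin u hu)
  have eτ := speedSq_energy hγ hJ (hwin τ left_mem_uIcc)
  have hc := momenta_const hγ hJ (a := τ) (b := u) fun v hv =>
    hwin v (uIcc_subset_uIcc left_mem_uIcc hu hv)
  rw [← hc.1, ← hc.2, hur] at eu
  rw [h0, speedSq_const hγ hJ τ u, eu] at eτ
  nlinarith [sq_nonneg (radVel S γ u)]

end Vale.Agent.P255
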