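import Vale.Agent.P255.Riem.Bridge

/-!
# P255: scalar functions along a geodesic with a Jacobi field, on any manifold

Each value is computed in the preferred chart at the point of the curve; near any time it agrees
with the value computed in a fixed chart.
-/

open scoped Manifold ContDiff
open Bundle Set Filter Topology

namespace Vale.Agent.P255

theorem eventuallyEq_covDeriv {G G' : E3 → Form 3} {z z' X X' : ℝ → E3} {t : ℝ}
    (hG : G =ᶠ[𝓝 (z t)] G') (hz : z =ᶠ[𝓝 t] z') (hX : X =ᶠ[𝓝 t] X') :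
    covDeriv G z X t = covDeriv G' z' X' t := by
  simp only [covDeriv, christoffel, hX.deriv_eq, hz.deriv_eq, ← hz.eq_of_nhds, ← hX.eq_of_nhds,
    hG.fderiv_eq, hG.eq_of_nhds]

theorem eventuallyEq_christoffel {G G' : E3 → Form 3} {y : E3} (hG : G =ᶠ[𝓝 y] G') :
    christoffel G =ᶠ[𝓝 y] christoffel G' := by
  filter_upwards [hG.eventuallyEq_nhds] with w hw
  funext u v
  simp only [christoffel, hw.fderiv_eq, hw.eq_of_nhds]

theorem eventuallyEq_curv {G G' : E3 → Form 3} {y : E3} (hG : G =ᶠ[𝓝 y] G') :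
    curv G y = curv G' y := by
  have h := eventuallyEq_christoffel hG
  funext u v w
  have h1 : (fun p => christoffel G p v w) =ᶠ[𝓝 y] fun p => christoffel G' p v w := by
    filter_upwards [h] with p hp
    rw [hp]
  have h2 : (fun p => christoffel G p u w) =ᶠ[𝓝 y] fun p => christoffel G' p u w := by
    filter_upwards [h] with p hp
    rw [hp]
  simp only [curv, h1.fderiv_eq, h2.fderiv_eq, h.eq_of_nhds]

variable {M : Type} [TopologicalSpace M] [ChartedSpace E3 M] [IsManifold (𝓡 3) ∞ M]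
variable (g : Metric 3 M) (γ : ℝ → M) (J : ∀ t, TangentSpace (𝓡 3) (γ t))

/-- the velocity -/
noncomputable def velo (t : ℝ) : TangentSpace (𝓡 3) (γ t) :=
  mfderiv 𝓘(ℝ) (𝓡 3) γ t (1 : ℝ)

/-- `|γ'|²` -/
noncomputable def speedSq (t : ℝ) : ℝ := g.inner (γ t) (velo γ t) (velo γ t)
/-- `g(J, γ')` -/
noncomputable def fieldVel (t : ℝ) : ℝ := g.inner (γ t) (J t) (velo γ t)
/-- `g(J, J)` -/
noncomputable def fieldSq (t : ℝ) : ℝ := g.inner (γ t) (J t) (J t)

/-- `G` in the preferred chart at `γ t` -/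
noncomputable def ownG (t : ℝ) : E3 → Form 3 := metricInChart g (γ t)
/-- the curve in the preferred chart at `γ t` -/
noncomputable def ownZ (t : ℝ) : ℝ → E3 := curveIn γ (γ t)
/-- the field in the preferred chart at `γ t` -/
noncomputable def ownX (t : ℝ) : ℝ → E3 := fieldInChart J (γ t)

/-- `g(J, DJ)` -/
noncomputable def stdFun (t : ℝ) : ℝ := fStd (ownG g γ t) (ownZ γ t) (ownX γ J t) t
/-- `g(DJ, DJ)` -/
noncomputable def covSq (t : ℝ) : ℝ :=
  ownG g γ t (ownZ γ t t) (covDeriv (ownG g γ t) (ownZ γ t) (ownX γ J t) t)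
    (covDeriv (ownG g γ t) (ownZ γ t) (ownX γ J t) t)
/-- `g(DJ, γ')` -/
noncomputable def covVel (t : ℝ) : ℝ :=
  ownG g γ t (ownZ γ t t) (covDeriv (ownG g γ t) (ownZ γ t) (ownX γ J t) t)
    (deriv (ownZ γ t) t)

variable {g γ J}

theorem own_mem (t : ℝ) : γ t ∈ (extChartAt (𝓡 3) (γ t)).source := mem_extChartAt_source _

theorem source_eventually (hγ : ContMDiff 𝓘(ℝ) (𝓡 3) ∞ γ) (x : M) {t : ℝ}
    (ht : γ t ∈ (extChartAt (𝓡 3) x).source) :
    ∀ᶠ s in 𝓝 t, γ s ∈ (extChartAt (𝓡 3) x).source :=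
  hγ.continuous.continuousAt.preimage_mem_nhds ((isOpen_extChartAt_source x).mem_nhds ht)

theorem deriv_curveIn (hγ : ContMDiff 𝓘(ℝ) (𝓡 3) ∞ γ) (x : M) {s : ℝ}
    (hs : γ s ∈ (extChartAt (𝓡 3) x).source) :
    deriv (curveIn γ x) s = mfderiv (𝓡 3) (𝓡 3) (extChartAt (𝓡 3) x) (γ s) (velo γ s) := by
  have h1 : MDifferentiableAt (𝓡 3) (𝓡 3) (extChartAt (𝓡 3) x) (γ s) :=
    mdifferentiableAt_extChartAt (by simpa [extChartAt_source] using hs)
  have h2 : MDifferentiableAt 𝓘(ℝ) (𝓡 3) γ s := (hγ s).mdifferentiableAt (by simp)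
  have h3 := mfderiv_comp s h1 h2
  rw [mfderiv_eq_fderiv] at h3
  show deriv ((extChartAt (𝓡 3) x) ∘ γ) s = _
  rw [← fderiv_apply_one_eq_deriv, h3]
  rfl

theorem speedSq_eq (hγ : ContMDiff 𝓘(ℝ) (𝓡 3) ∞ γ) (x : M) {s : ℝ}
    (hs : γ s ∈ (extChartAt (𝓡 3) x).source) :
    speedSq g γ s = metricInChart g x (curveIn γ x s) (deriv (curveIn γ x) s)
      (deriv (curveIn γ x) s) := by
  rw [speedSq, inner_eq_metricInChart g x hs, deriv_curveIn hγ x hs]
  rfl

theorem fieldVel_eq (hγ : ContMDiff 𝓘(ℝ) (𝓡 3) ∞ γ) (x : M) {s : ℝ}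
    (hs : γ s ∈ (extChartAt (𝓡 3) x).source) :
    fieldVel g γ J s = metricInChart g x (curveIn γ x s) (fieldInChart J x s)
      (deriv (curveIn γ x) s) := by
  rw [fieldVel, inner_eq_metricInChart g x hs, deriv_curveIn hγ x hs]
  rfl

theorem fieldSq_eq (x : M) {s : ℝ} (hs : γ s ∈ (extChartAt (𝓡 3) x).source) :
    fieldSq g γ J s = metricInChart g x (curveIn γ x s) (fieldInChart J x s)
      (fieldInChart J x s) := by
  rw [fieldSq, inner_eq_metricInChart g x hs]
  rfl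

variable (hγ : IsGeodesic g γ) (hJ : IsJacobi g γ J)
include hγ hJ

theorem own_curveNear (t : ℝ) : CurveNear (ownG g γ t) (ownZ γ t) (ownX γ J t) t :=
  curveNear_chart g hγ.1 hJ.1 (γ t) (own_mem t)

theorem own_geo (t : ℝ) : GeoAt (ownG g γ t) (ownZ γ t) t := hγ.2 t

theorem own_jac (t : ℝ) : JacAt (ownG g γ t) (ownZ γ t) (ownX γ J t) t := hJ.2 t

theorem hasDerivAt_speedSq (t : ℝ) : HasDerivAt (speedSq g γ) 0 t := by
  refine (hasDerivAt_speed (own_curveNear hγ hJ t) (own_geo hγ hJ t)).congr_of_eventuallyEq ?_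
  filter_upwards [source_eventually hγ.1 (γ t) (own_mem t)] with s hs
  exact speedSq_eq hγ.1 (γ t) hs

theorem stdFun_eventually (t : ℝ) :
    stdFun g γ J =ᶠ[𝓝 t] fStd (ownG g γ t) (ownZ γ t) (ownX γ J t) := by
  filter_upwards [source_eventually hγ.1 (γ t) (own_mem t)] with s hs
  exact (fStd_chart g hγ.1 hJ.1 (γ t) hs).1.symm

theorem covSq_eventually (t : ℝ) :
    covSq g γ J =ᶠ[𝓝 t] fun s => ownG g γ t (ownZ γ t s)
      (covDeriv (ownG g γ t) (ownZ γ t) (ownX γ J t) s)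
      (covDeriv (ownG g γ t) (ownZ γ t) (ownX γ J t) s) := by
  filter_upwards [source_eventually hγ.1 (γ t) (own_mem t)] with s hs
  exact (fStd_chart g hγ.1 hJ.1 (γ t) hs).2.symm

theorem hasDerivAt_fieldVel (t : ℝ) : HasDerivAt (fieldVel g γ J) (covVel g γ J t) t := by
  refine (hasDerivAt_field_vel (own_curveNear hγ hJ t) (own_geo hγ hJ t)).congr_of_eventuallyEq ?_
  filter_upwards [source_eventually hγ.1 (γ t) (own_mem t)] with s hs
  exact fieldVel_eq hγ.1 (γ t) hs

theorem covVel_eventually (t : ℝ) :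
    covVel g γ J =ᶠ[𝓝 t] fun s => ownG g γ t (ownZ γ t s)
      (covDeriv (ownG g γ t) (ownZ γ t) (ownX γ J t) s) (deriv (ownZ γ t) s) := by
  have hev := source_eventually hγ.1 (γ t) (own_mem t)
  filter_upwards [hev, hev.eventually_nhds] with s hs hs'
  refine (hasDerivAt_fieldVel hγ hJ s).unique ?_
  refine (hasDerivAt_field_vel (curveNear_chart g hγ.1 hJ.1 (γ t) hs)
    (geoAt_chart g hγ (γ t) hs)).congr_of_eventuallyEq ?_
  filter_upwards [hs'] with u hu
  exact fieldVel_eq hγ.1 (γ t) hu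

theorem hasDerivAt_covVel (t : ℝ) : HasDerivAt (covVel g γ J) 0 t :=
  (hasDerivAt_cov_vel (own_curveNear hγ hJ t) (own_geo hγ hJ t)
    (own_jac hγ hJ t)).congr_of_eventuallyEq (covVel_eventually hγ hJ t)

theorem hasDerivAt_fieldSq (t : ℝ) : HasDerivAt (fieldSq g γ J) (2 * stdFun g γ J t) t := by
  refine (hasDerivAt_sq (own_curveNear hγ hJ t)).congr_of_eventuallyEq ?_
  filter_upwards [source_eventually hγ.1 (γ t) (own_mem t)] with s hs
  exact fieldSq_eq (γ t) hs

theorem hasDerivAt_stdFun (t : ℝ) :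
    HasDerivAt (stdFun g γ J)
      (covSq g γ J t - secForm (ownG g γ t) (ownZ γ t t) (ownX γ J t t) (deriv (ownZ γ t) t)) t :=
  (Vale.Agent.P255.hasDerivAt_fStd (own_curveNear hγ hJ t)
    (own_jac hγ hJ t)).congr_of_eventuallyEq (stdFun_eventually hγ hJ t)

theorem hasDerivAt_covSq (t : ℝ) :
    HasDerivAt (covSq g γ J)
      (-2 * ownG g γ t (ownZ γ t t) (curv (ownG g γ t) (ownZ γ t t) (ownX γ J t t)
        (deriv (ownZ γ t) t) (deriv (ownZ γ t) t))
        (covDeriv (ownG g γ t) (ownZ γ t) (ownX γ J t) t)) t :=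
  (hasDerivAt_cov_sq (own_curveNear hγ hJ t)
    (own_jac hγ hJ t)).congr_of_eventuallyEq (covSq_eventually hγ hJ t)

theorem speedSq_const (s t : ℝ) : speedSq g γ s = speedSq g γ t :=
  is_const_of_deriv_eq_zero (fun u => (hasDerivAt_speedSq hγ hJ u).differentiableAt)
    (fun u => (hasDerivAt_speedSq hγ hJ u).deriv) s t

/-- a Jacobi field with two zeros is normal to the geodesic -/
theorem fieldVel_zero {a b : ℝ} (hab : a ≠ b) (ha : J a = 0) (hb : J b = 0) (t : ℝ) :
    fieldVel g γ J t = 0 ∧ covVel g γ J t = 0 := by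
  have hq : ∀ s, covVel g γ J s = covVel g γ J a := fun s =>
    is_const_of_deriv_eq_zero (fun u => (hasDerivAt_covVel hγ hJ u).differentiableAt)
      (fun u => (hasDerivAt_covVel hγ hJ u).deriv) s a
  have hd : ∀ u, HasDerivAt (fun s => fieldVel g γ J s - covVel g γ J a * s) 0 u := by
    intro u
    have := (hasDerivAt_fieldVel hγ hJ u).fun_sub ((hasDerivAt_id u).const_mul (covVel g γ J a))
    rw [hq u] at this
    simpa using this
  have hc := fun s => is_const_of_deriv_eq_zero (fun u => (hd u).differentiableAt)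
    (fun u => (hd u).deriv) s a
  have ha' : fieldVel g γ J a = 0 := by simp [fieldVel, ha]
  have hb' : fieldVel g γ J b = 0 := by simp [fieldVel, hb]
  have h0 : covVel g γ J a = 0 := by
    have := hc b
    simp only [ha', hb'] at this
    have h1 : covVel g γ J a * (b - a) = 0 := by linarith
    exact (mul_eq_zero.1 h1).resolve_right (sub_ne_zero.2 hab.symm)
  refine ⟨?_, by rw [hq t, h0]⟩
  have := hc t
  simp only [h0, ha'] at this
  linarith

theorem fieldSq_nonneg (t : ℝ) : 0 ≤ fieldSq g γ J t := by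
  rcases eq_or_ne (J t) 0 with h | h
  · simp [fieldSq, h]
  · exact (g.pos (γ t) (J t) h).le

theorem covSq_nonneg (t : ℝ) : 0 ≤ covSq g γ J t := by
  rcases eq_or_ne (covDeriv (ownG g γ t) (ownZ γ t) (ownX γ J t) t) 0 with h | h
  · simp [covSq, h]
  · exact ((own_curveNear hγ hJ t).metric.pos.self_of_nhds _ h).le

end Vale.Agent.P255
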